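import Vale.Agent.P083.H903.Rep
import Vale.Agent.P083.H903.UP

/-!
# Homomorphisms into a norm ultraproduct of a sequence of C*-algebras
-/

set_option linter.all false

open Filter Topology
open scoped ENNReal InnerProductSpace

namespace Vale.Agent.P083.H903

open Vale.Agent.P083 Vale.Agent.P083N

noncomputable section

/-- A *-homomorphism into the norm ultraproduct has a lift to maps `φ n : A → B n` which are
asymptotically (along `ω`) *-homomorphisms. -/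
theorem exists_lift {A : Type} [CStarAlgebra A] {B : ℕ → Type} [∀ n, CStarAlgebra (B n)]
    [∀ n, Nontrivial (B n)] {ω : Ultrafilter ℕ} {Q : Type} [CStarAlgebra Q]
    {q : lp B ∞ →⋆ₐ[ℂ] Q} (hq : IsUltraproduct B ω Q q) (Φ : A →⋆ₙₐ[ℂ] Q) :
    ∃ φ : ∀ n, A → B n, (∀ a, ∃ C : ℝ, ∀ n, ‖φ n a‖ ≤ C) ∧
      (∀ a b, Tendsto (fun n => ‖φ n (a + b) - (φ n a + φ n b)‖) ω (𝓝 0)) ∧
      (∀ a b, Tendsto (fun n => ‖φ n (a * b) - φ n a * φ n b‖) ω (𝓝 0)) ∧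
      (∀ (c : ℂ) (a : A), Tendsto (fun n => ‖φ n (c • a) - c • φ n a‖) ω (𝓝 0)) ∧
      (∀ a, Tendsto (fun n => ‖φ n (star a) - star (φ n a)‖) ω (𝓝 0)) ∧
      ((∀ a, Tendsto (fun n => ‖φ n a‖) ω (𝓝 0)) → Φ = 0) := by
  choose L hL using fun a => hq.surj (Φ a)
  have key : ∀ x y : lp B ∞, q x = q y → Tendsto (fun n => ‖x n - y n‖) ω (𝓝 0) := by
    intro x y hxy
    have : q (x - y) = 0 := by rw [map_sub, hxy, sub_self]
    exact (hq.ker (x - y)).1 this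
  refine ⟨fun n a => L a n, fun a => ⟨‖L a‖, fun n => lp.norm_apply_le_norm (by simp) (L a) n⟩,
    fun a b => ?_, fun a b => ?_, fun c a => ?_, fun a => ?_, fun h => ?_⟩
  · exact key (L (a + b)) (L a + L b) (by rw [map_add, hL, hL, hL, map_add])
  · exact key (L (a * b)) (L a * L b) (by rw [map_mul, hL, hL, hL, map_mul])
  · exact key (L (c • a)) (c • L a) (by rw [map_smul, hL, hL, map_smul])
  · exact key (L (star a)) (star (L a)) (by rw [map_star, hL, hL, map_star])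
  · refine NonUnitalStarAlgHom.ext fun a => ?_
    rw [← hL a]
    exact (hq.ker (L a)).2 (h a)

/-- The stage theorem, in the form in which it is used. -/
def StStage : Prop :=
  ∀ (p : ℕ) (hp : Fact p.Prime), 100 ≤ p → ∀ (χ : AddChar (ZMod p) Circle)
    (A : Type) (_ : CStarAlgebra A) (a : Gen → A) (t : ZMod p → A) (s : A),
    haveI : NeZero p := ⟨hp.out.ne_zero⟩
    Rels p χ a t s →
    ∀ (B : ℕ → Type) (_ : ∀ n, CStarAlgebra (B n)) (K : ℕ → Type)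
      (_ : ∀ n, NormedAddCommGroup (K n)) (_ : ∀ n, InnerProductSpace ℂ (K n))
      (_ : ∀ n, CompleteSpace (K n)) (π : ∀ n, B n →⋆ₐ[ℂ] (K n →L[ℂ] K n)),
      (∀ n, Function.Injective (π n)) → ∀ (ω : Ultrafilter ℕ) (φ : ∀ n, A → B n),
      (∀ a, ∃ C : ℝ, ∀ n, ‖φ n a‖ ≤ C) →
      (∀ a b, Tendsto (fun n => ‖φ n (a + b) - (φ n a + φ n b)‖) ω (𝓝 0)) →
      (∀ a b, Tendsto (fun n => ‖φ n (a * b) - φ n a * φ n b‖) ω (𝓝 0)) →
      (∀ (c : ℂ) (a : A), Tendsto (fun n => ‖φ n (c • a) - c • φ n a‖) ω (𝓝 0)) →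
      (∀ a, Tendsto (fun n => ‖φ n (star a) - star (φ n a)‖) ω (𝓝 0)) →
      ¬ (∀ a, Tendsto (fun n => ‖φ n a‖) ω (𝓝 0)) →
      ∃ n, ‖φ n 1‖ ≤ 2 ∧ (∀ g, ‖star (φ n (a g)) * φ n (a g) - φ n 1‖ ≤ 1 / 10 ^ 24) ∧
        (∀ g, ‖φ n 1 * φ n (a g) - φ n (a g)‖ ≤ 1 / 10 ^ 24) ∧
        ∀ j, ∃ ζ : Wd p j → K n, ∑ x, ‖ζ x‖ ^ 2 = 1 ∧
          ∀ g, ∑ x, ‖((χ (-(gl j g).ph x) : Circle) : ℂ) • π n (φ n (a g)) (ζ x)
            - ζ ((gl j g).map x)‖ ^ 2 ≤ 10 ^ 4 * (1 / 10 ^ 24)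

/-- **No homomorphism into a norm ultraproduct of exact C*-algebras.** -/
theorem main_of_stage (hst : StStage) : ∃ (A : Type) (_ : CStarAlgebra A), Nontrivial A ∧
    TopologicalSpace.SeparableSpace A ∧
    (∀ (O : Type) [CStarAlgebra O] [Nontrivial O] (s₁ s₂ : O), CuntzTwo s₁ s₂ →
      ∀ ω : Ultrafilter ℕ, ¬ ∃ φ : ℕ → A → O, LiftsHom A O ω φ) ∧
    ∀ (B : ℕ → Type) [∀ n, CStarAlgebra (B n)] [∀ n, Nontrivial (B n)],
      (∀ n, IsExactAlg (B n) ∨ IsNuclear (B n) ∨ ∃ s₁ s₂ : B n, CuntzTwo s₁ s₂) →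
      ∀ (ω : Ultrafilter ℕ) (Q : Type) [CStarAlgebra Q] (q : lp B ∞ →⋆ₐ[ℂ] Q),
        IsUltraproduct B ω Q q → ∀ Φ : A →⋆ₙₐ[ℂ] Q, Φ = 0 := by
  have h101 : Fact (Nat.Prime 101) := ⟨by norm_num⟩
  obtain ⟨a, t, s, h⟩ := exists_rels_op 101 ZMod.toCircle
  have : Nontrivial (L2 (Ix 101 × ℕ) ℂ →L[ℂ] L2 (Ix 101 × ℕ) ℂ) := by
    have : Nontrivial (L2 (Ix 101 × ℕ) ℂ) := by
      classical
      refine ⟨⟨lp.single 2 (⟨0, 0⟩, 0) (1 : ℂ), 0, fun h => ?_⟩⟩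
      have := congrArg (fun f : L2 (Ix 101 × ℕ) ℂ => f (⟨0, 0⟩, 0)) h
      simp only [Matrix.zero_empty, lp.single_apply, Pi.single_eq_same, ZeroMemClass.coe_zero,
        PreLp.zero_apply, one_ne_zero] at this
    infer_instance
  obtain ⟨A, hA, hA1, hA2, a', t', s', h'⟩ := exists_separable 101 ZMod.toCircle h
  refine ⟨A, hA, hA1, hA2, ?_, ?_⟩
  · intro O _ _ s₁ s₂ hO ω hemb
    obtain ⟨φ, hφ⟩ := hemb
    exact not_lifts (by norm_num) (by norm_num) ZMod.injective_toCircle h' hO hφ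
  · intro B _ _ hB ω Q _ q hq Φ
    choose K i1 i2 i3 i4 π hπ hS using fun n => exists_sliceRep (B n) (hB n)
    obtain ⟨φ, l1, l2, l3, l4, l5, l6⟩ := exists_lift hq Φ
    refine l6 ?_
    by_contra hcon
    obtain ⟨n, e1, e2, e3, e4⟩ := hst 101 h101 (by norm_num) ZMod.toCircle A hA a' t' s' h' B
      inferInstance K i1 i2 i3 π hπ ω φ l1 l2 l3 l4 l5 hcon
    exact no_stage (by norm_num) (by norm_num) ZMod.injective_toCircle (π n) (hS n)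
      (fun g => φ n (a' g)) (φ n 1) e1 e2 e3 e4

end

end Vale.Agent.P083.H903
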