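import Vale.Agent.P083.NuclearDef
import Mathlib.Analysis.CStarAlgebra.ContinuousLinearMap
import Mathlib.Analysis.CStarAlgebra.lpSpace
import Mathlib.Order.Filter.Ultrafilter.Defs

/-!
# Exact C*-algebras and norm ultraproducts of sequences of C*-algebras
-/

open Filter Topology
open scoped ENNReal

namespace Vale.Agent.P083.H903

open Vale.Agent.P083

/-- `π` is a nuclear representation: a pointwise limit of compositions `D → Mₖ(ℂ) → B(K)` of
unital completely positive maps. -/
def NucRep {D : Type} [CStarAlgebra D] {K : Type} [NormedAddCommGroup K] [InnerProductSpace ℂ K]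
    [CompleteSpace K] (π : D →⋆ₐ[ℂ] (K →L[ℂ] K)) : Prop :=
  ∀ (F : Finset D) (ε : ℝ), 0 < ε → ∃ (k : ℕ) (α : D →ₗ[ℂ] Matrix (Fin k) (Fin k) ℂ)
    (β : Matrix (Fin k) (Fin k) ℂ →ₗ[ℂ] (K →L[ℂ] K)), IsCP α ∧ IsCP β ∧ α 1 = 1 ∧ β 1 = 1 ∧
      ∀ d ∈ F, ‖β (α d) - π d‖ < ε

/-- Exactness of a unital C*-algebra, in Kirchberg's form of nuclear embeddability: there is a
faithful unital representation on a Hilbert space which is nuclear. -/
def IsExactAlg (D : Type) [CStarAlgebra D] : Prop :=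
  ∃ (K : Type) (_ : NormedAddCommGroup K) (_ : InnerProductSpace ℂ K) (_ : CompleteSpace K)
    (π : D →⋆ₐ[ℂ] (K →L[ℂ] K)), Function.Injective π ∧ NucRep π

/-- `q : ∏ B n → Q` (bounded sequences with the supremum norm) realizes the C*-algebra `Q` as the
norm ultraproduct `∏_ω B n = ℓ^∞(B n) / {x : lim_ω ‖x n‖ = 0}`: `q` is a surjective unital
*-homomorphism whose kernel is the ideal of bounded sequences which are null along `ω`. -/
structure IsUltraproduct (B : ℕ → Type) [∀ n, CStarAlgebra (B n)] [∀ n, Nontrivial (B n)]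
    (ω : Ultrafilter ℕ) (Q : Type) [CStarAlgebra Q] (q : lp B ∞ →⋆ₐ[ℂ] Q) : Prop where
  surj : Function.Surjective q
  ker : ∀ x, q x = 0 ↔ Tendsto (fun n => ‖x n‖) ω (𝓝 0)

end Vale.Agent.P083.H903
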