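import Vale.Agent.P083.H903.UConv

/-!
# The negative solution of Kirchberg's embedding problem for ultraproducts of exact algebras
-/

set_option linter.all false

open Filter Topology
open scoped ENNReal InnerProductSpace BoundedContinuousFunction

namespace Vale.Agent.P083.H903

open Vale.Agent.P083 Vale.Agent.P083N

noncomputable section

/-- **No homomorphism into a norm ultraproduct of exact C*-algebras.** -/
theorem main_final : ∃ (A : Type) (_ : CStarAlgebra A), Nontrivial A ∧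
    TopologicalSpace.SeparableSpace A ∧
    (∀ (O : Type) [CStarAlgebra O] [Nontrivial O] (s₁ s₂ : O), CuntzTwo s₁ s₂ →
      ∀ (ω : Ultrafilter ℕ) (Q : Type) [CStarAlgebra Q] (q : (ℕ →ᵇ O) →⋆ₐ[ℂ] Q),
        IsUltrapower O ω Q q → IsEmpty (A →⋆ₐ[ℂ] Q)) ∧
    ∀ (B : ℕ → Type) [∀ n, CStarAlgebra (B n)] [∀ n, Nontrivial (B n)],
      (∀ n, IsExactAlg (B n) ∨ IsNuclear (B n) ∨ ∃ s₁ s₂ : B n, CuntzTwo s₁ s₂) →
      ∀ (ω : Ultrafilter ℕ) (Q : Type) [CStarAlgebra Q] (q : (∀ n, B n) → Q),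
        IsUltraprod B ω Q q → ∀ Φ : A →⋆ₙₐ[ℂ] Q, Φ = 0 := by
  have h101 : Fact (Nat.Prime 101) := ⟨by norm_num⟩
  obtain ⟨a, t, s, h⟩ := exists_rels_op 101 ZMod.toCircle
  have : Nontrivial (L2 (Ix 101 × ℕ) ℂ →L[ℂ] L2 (Ix 101 × ℕ) ℂ) := by
    have : Nontrivial (L2 (Ix 101 × ℕ) ℂ) := by
      classical
      refine ⟨⟨lp.single 2 (⟨0, 0⟩, 0) (1 : ℂ), 0, fun h => ?_⟩⟩
      have := congrArg (fun f : L2 (Ix 101 × ℕ) ℂ => f (⟨0, 0⟩, 0)) h
      simp only [Matrix.zero_empty, lp.single_apply, Pi.single_eq_same, ZeroMemClass.coe_zero,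
        PreLp.zero_apply, one_ne_zero] at this
    infer_instance
  obtain ⟨A, hA, hA1, hA2, a', t', s', h'⟩ := exists_separable 101 ZMod.toCircle h
  refine ⟨A, hA, hA1, hA2, ?_, ?_⟩
  · intro O _ _ s₁ s₂ hO ω Q _ q hq
    refine ⟨fun Φ => ?_⟩
    obtain ⟨φ, hφ⟩ := exists_liftsHom hq Φ
    exact not_lifts (by norm_num) (by norm_num) ZMod.injective_toCircle h' hO hφ
  · intro B _ _ hB ω Q _ q hq Φ
    choose K i1 i2 i3 i4 π hπ hS using fun n => exists_sliceRep (B n) (hB n)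
    obtain ⟨φ, l1, l2, l3, l4, l5, l6⟩ := exists_lift' hq Φ
    refine l6 ?_
    by_contra hcon
    obtain ⟨n, e1, e2, e3, e4⟩ := stStage 101 h101 (by norm_num) ZMod.toCircle A hA a' t' s' h' B
      inferInstance K i1 i2 i3 π hπ ω φ l1 l2 l3 l4 l5 hcon
    exact no_stage (by norm_num) (by norm_num) ZMod.injective_toCircle (π n) (hS n)
      (fun g => φ n (a' g)) (φ n 1) e1 e2 e3 e4

end

end Vale.Agent.P083.H903
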