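import Vale.Agent.P083.Bdl.B1

/-!
# The Gram step with the isometry hypothesis only on the vectors
-/

set_option linter.all false

open scoped InnerProductSpace ComplexConjugate ComplexOrder
open Matrix Finset

namespace Vale.Agent.P083.H903

open Vale.Agent.P083N Vale.Agent.P083N.Gram

noncomputable section

/-- the perturbation estimate -/
theorem perturb' {ι : Type} [Fintype ι] [DecidableEq ι] {K : Type} [NormedAddCommGroup K]
    [InnerProductSpace ℂ K] (s : Matrix ι ι ℂ) (hs : s * sᴴ = 1) [CompleteSpace K] (y z : ι → K)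
    (u : K →L[ℂ] K) {η : ℝ} (hη : 0 ≤ η) (hη1 : η ≤ 1)
    (hy : ∑ w, ‖y w‖ ^ 2 = 1) (hz : ∑ w, ‖z w‖ ^ 2 = 1)
    (hd : ∑ w, ‖y w - u (z w)‖ ^ 2 ≤ η ^ 2)
    (huz : ∑ w, ‖(star u * u - 1) (z w)‖ ^ 2 ≤ η ^ 2) :
    (∑ w, ∑ w', s w' w * (⟪y w, y w'⟫_ℂ - ⟪z w, z w'⟫_ℂ)).re ≤ 4 * η := by
  have hsplit : ∀ w w', ⟪y w, y w'⟫_ℂ - ⟪z w, z w'⟫_ℂ
      = ⟪y w - u (z w), y w'⟫_ℂ + ⟪u (z w), y w' - u (z w')⟫_ℂ
        + ⟪z w, (star u * u - 1) (z w')⟫_ℂ := by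
    intro w w'
    have h1 : ⟪z w, (star u * u - 1) (z w')⟫_ℂ = ⟪u (z w), u (z w')⟫_ℂ - ⟪z w, z w'⟫_ℂ := by
      rw [_root_.sub_apply, inner_sub_right, mul_apply_eq_comp,
        ContinuousLinearMap.star_eq_adjoint, ContinuousLinearMap.adjoint_inner_right]
      rfl
    rw [h1, inner_sub_left, inner_sub_right]
    ring
  have htrace2 : ∑ w, ∑ w', s w' w * (⟪y w, y w'⟫_ℂ - ⟪z w, z w'⟫_ℂ)
      = (∑ w, ∑ w', s w' w * ⟪y w - u (z w), y w'⟫_ℂ)
        + (∑ w, ∑ w', s w' w * ⟪u (z w), y w' - u (z w')⟫_ℂ)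
        + ∑ w, ∑ w', s w' w * ⟪z w, (star u * u - 1) (z w')⟫_ℂ := by
    rw [← Finset.sum_add_distrib, ← Finset.sum_add_distrib]
    refine sum_congr rfl fun w _ => ?_
    rw [← Finset.sum_add_distrib, ← Finset.sum_add_distrib]
    refine sum_congr rfl fun w' _ => ?_
    rw [hsplit]
    ring
  -- `‖u z‖² ≤ 4`
  have hxn : ∑ w, ‖u (z w)‖ ^ 2 ≤ 2 ^ 2 := by
    have h1 : ∀ w, ‖u (z w)‖ ^ 2 ≤ 2 * ‖y w‖ ^ 2 + 2 * ‖y w - u (z w)‖ ^ 2 := by
      intro w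
      have h2 : ‖u (z w)‖ ≤ ‖y w‖ + ‖y w - u (z w)‖ := by
        have := norm_sub_le (y w) (y w - u (z w))
        rwa [sub_sub_cancel] at this
      have h3 := pow_le_pow_left₀ (norm_nonneg _) h2 2
      nlinarith only [h3, sq_nonneg (‖y w‖ - ‖y w - u (z w)‖)]
    calc ∑ w, ‖u (z w)‖ ^ 2 ≤ ∑ w, (2 * ‖y w‖ ^ 2 + 2 * ‖y w - u (z w)‖ ^ 2) :=
          sum_le_sum fun w _ => h1 w
      _ = 2 * ∑ w, ‖y w‖ ^ 2 + 2 * ∑ w, ‖y w - u (z w)‖ ^ 2 := by
          rw [Finset.sum_add_distrib, Finset.mul_sum, Finset.mul_sum]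
      _ ≤ 2 * 1 + 2 * η ^ 2 := by
          rw [hy]
          linarith only [hd]
      _ ≤ 2 ^ 2 := by nlinarith only [hη1, hη]
  have b1 := pair_bound s hs (fun w => y w - u (z w)) y hη
    (zero_le_one' ℝ) hd (by rw [hy]; norm_num)
  have b2 := pair_bound s hs (fun w => u (z w)) (fun w => y w - u (z w))
    (zero_le_two : (0 : ℝ) ≤ 2) hη hxn hd
  have b3 := pair_bound s hs z (fun w => (star u * u - 1) (z w)) (zero_le_one' ℝ) hη
    (by rw [hz]; norm_num) huz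
  rw [htrace2, Complex.add_re, Complex.add_re]
  linarith

theorem gram_step' {W : Type} [Fintype W] [DecidableEq W]
    {K : Type} [NormedAddCommGroup K] [InnerProductSpace ℂ K] [CompleteSpace K]
    (V : Submodule ℂ K) [FiniteDimensional ℂ V]
    (y : W → K) (hy : ∑ w, ‖y w‖ ^ 2 = 1) (hV : ∀ w, y w ∈ V) :
    ∃ f : W → W → ℂ, ∑ w, ∑ w', ‖f w w'‖ ^ 2 = 1 ∧
      (∀ c : ℂ, ‖c‖ ^ 2 * ((Fintype.card W : ℝ) - Module.finrank ℂ V)
        ≤ ∑ w, ∑ w', ‖f w w' - (if w = w' then c else 0)‖ ^ 2) ∧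
      ∀ (m : W → W) (c : W → ℂ) (u : K →L[ℂ] K) (η : ℝ), Function.Bijective m →
        (∀ w, ‖c w‖ = 1) → 0 ≤ η → η ≤ 1 →
        ∑ w, ‖c w • u (y w) - y (m w)‖ ^ 2 ≤ η ^ 2 →
        ∑ w, ‖(star u * u - 1) (y w)‖ ^ 2 ≤ η ^ 2 →
        ∑ w, ∑ w', ‖f (m w) (m w') - conj (c w) * c w' * f w w'‖ ^ 2 ≤ 10 * η := by
  obtain ⟨T, hT1, hT2, hTe⟩ := exists_gram V y hV
  obtain ⟨f, hf1, hff, hf2, hf3⟩ := exists_root hT1 hT2
  refine ⟨f, ?_, ?_, ?_⟩
  · have h2 : T.trace = ((∑ w, ‖y w‖ ^ 2 : ℝ) : ℂ) := by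
      rw [Matrix.trace, Complex.ofReal_sum]
      refine sum_congr rfl fun w _ => ?_
      rw [Matrix.diag_apply, hTe, inner_self_eq_norm_sq_to_K]
      push_cast
      rfl
    rw [h2, hy, Complex.ofReal_one] at hf2
    have h3 : fro f = 1 := by exact_mod_cast hf2
    exact h3
  · intro c
    refine (hf3 c).trans (le_of_eq ?_)
    unfold fro
    refine sum_congr rfl fun w _ => sum_congr rfl fun w' _ => ?_
    rw [Matrix.sub_apply, Matrix.smul_apply, Matrix.one_apply]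
    split_ifs
    · rw [smul_eq_mul, mul_one]
    · rw [smul_zero]
  · intro m c u η hm hc hη hη1 hsum hu
    obtain ⟨s, hs1, hs2⟩ := exists_unitary hf1 hff (Equiv.ofBijective m hm) c hc
    refine hs2.trans ?_
    have h1 := perturb' s hs1 (fun w => y (m w)) (fun w => c w • y w) u hη hη1 ?_ ?_ ?_ ?_
    · refine le_trans (le_of_eq ?_) (h1.trans (by linarith only [hη]))
      congr 1
      refine sum_congr rfl fun w _ => sum_congr rfl fun w' _ => ?_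
      rw [hTe, hTe, inner_smul_left, inner_smul_right]
      simp only [Equiv.ofBijective_apply]
      ring
    · rw [← hy, ← Equiv.sum_comp (Equiv.ofBijective m hm) (fun w => ‖y w‖ ^ 2)]
      rfl
    · rw [← hy]
      refine sum_congr rfl fun w _ => ?_
      rw [norm_smul, hc w, one_mul]
    · refine le_trans (le_of_eq ?_) hsum
      refine sum_congr rfl fun w _ => ?_
      rw [norm_sub_rev, map_smul]
    · refine le_trans (le_of_eq ?_) hu
      refine sum_congr rfl fun w _ => ?_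
      rw [map_smul, norm_smul, hc w, one_mul]

end

end Vale.Agent.P083.H903
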