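import Vale.Agent.P083.H903.Stage

/-!
# Faithful representations with slices
-/

set_option linter.all false

open Filter Topology
open scoped ENNReal InnerProductSpace ComplexOrder

namespace Vale.Agent.P083.H903

open Vale.Agent.P083 Vale.Agent.P083N

noncomputable section

/-- For every element a representation in which its norm is attained. -/
theorem exists_rep_norm (D : Type) [CStarAlgebra D] [Nontrivial D] (x : D) :
    ∃ (K : Type) (_ : NormedAddCommGroup K) (_ : InnerProductSpace ℂ K) (_ : CompleteSpace K)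
      (π : D →⋆ₐ[ℂ] (K →L[ℂ] K)) (ξ : K), ‖ξ‖ = 1 ∧ ‖π x ξ‖ = ‖x‖ := by
  letI : PartialOrder D := CStarAlgebra.spectralOrder D
  letI : StarOrderedRing D := CStarAlgebra.spectralOrderedRing D
  obtain ⟨ψ, hψ1, hψx⟩ := Vale.Agent.P083.exists_state_norm x
  refine ⟨ψ.GNS, inferInstance, inferInstance, inferInstance, ψ.gnsStarAlgHom,
    ((ψ.toPreGNS 1 : ψ.PreGNS) : ψ.GNS), ?_, ?_⟩
  · rw [UniformSpace.Completion.norm_coe]
    have h2 := ψ.preGNS_norm_sq (ψ.toPreGNS 1)
    simp only [PositiveLinearMap.ofPreGNS_toPreGNS, star_one, mul_one, hψ1] at h2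
    have h3 : ‖ψ.toPreGNS 1‖ ^ 2 = 1 := by exact_mod_cast h2
    nlinarith [norm_nonneg (ψ.toPreGNS (1 : D))]
  · have h1 : ψ.gnsStarAlgHom x ((ψ.toPreGNS 1 : ψ.PreGNS) : ψ.GNS)
        = ((ψ.toPreGNS (x * 1) : ψ.PreGNS) : ψ.GNS) := by
      show ψ.gnsNonUnitalStarAlgHom x ((ψ.toPreGNS 1 : ψ.PreGNS) : ψ.GNS) = _
      rw [PositiveLinearMap.gnsNonUnitalStarAlgHom_apply_coe]
      rfl
    rw [h1, UniformSpace.Completion.norm_coe, mul_one]
    have h2 := ψ.preGNS_norm_sq (ψ.toPreGNS x)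
    rw [PositiveLinearMap.ofPreGNS_toPreGNS, hψx] at h2
    have h3 : ‖ψ.toPreGNS x‖ ^ 2 = ‖x‖ ^ 2 := by exact_mod_cast h2
    exact (sq_eq_sq₀ (norm_nonneg _) (norm_nonneg _)).1 h3

section dsum

variable {ι : Type} {K : ι → Type} [∀ i, NormedAddCommGroup (K i)]
  [∀ i, InnerProductSpace ℂ (K i)] [∀ i, CompleteSpace (K i)] {D : Type} [CStarAlgebra D]

/-- the direct sum of representations -/
def dsum (π : ∀ i, D →⋆ₐ[ℂ] (K i →L[ℂ] K i)) : D →⋆ₐ[ℂ] (lp K 2 →L[ℂ] lp K 2) where
  toFun x := lp.mapCLM 2 (fun i => π i x) (norm_nonneg x)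
    fun i => NonUnitalStarAlgHom.norm_apply_le (π i) x
  map_one' := by
    ext f i
    show π i 1 (f i) = f i
    rw [map_one]
    rfl
  map_mul' a b := by
    ext f i
    show π i (a * b) (f i) = π i a (π i b (f i))
    rw [map_mul]
    rfl
  map_zero' := by
    ext f i
    show π i 0 (f i) = 0
    rw [map_zero]
    rfl
  map_add' a b := by
    ext f i
    show π i (a + b) (f i) = π i a (f i) + π i b (f i)
    rw [map_add]
    rfl
  commutes' c := by
    ext f i
    show π i (algebraMap ℂ D c) (f i) = c • f i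
    rw [AlgHomClass.commutes]
    rfl
  map_star' b := by
    rw [ContinuousLinearMap.star_eq_adjoint]
    refine (ContinuousLinearMap.eq_adjoint_iff _ _).2 fun f g => ?_
    rw [lp.inner_eq_tsum, lp.inner_eq_tsum]
    refine tsum_congr fun i => ?_
    show ⟪π i (star b) (f i), g i⟫_ℂ = ⟪f i, π i b (g i)⟫_ℂ
    rw [map_star, ContinuousLinearMap.star_eq_adjoint, ContinuousLinearMap.adjoint_inner_left]

theorem dsum_apply (π : ∀ i, D →⋆ₐ[ℂ] (K i →L[ℂ] K i)) (x : D) (f : lp K 2) (i : ι) :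
    dsum π x f i = π i x (f i) := rfl

end dsum

/-- Every unital C*-algebra has a faithful unital representation. -/
theorem exists_faithful_rep (D : Type) [CStarAlgebra D] [Nontrivial D] :
    ∃ (K : Type) (_ : NormedAddCommGroup K) (_ : InnerProductSpace ℂ K) (_ : CompleteSpace K)
      (π : D →⋆ₐ[ℂ] (K →L[ℂ] K)), Function.Injective π := by
  classical
  choose K h1 h2 h3 π ξ hξ hπ using exists_rep_norm D
  refine ⟨lp K 2, inferInstance, inferInstance, inferInstance, dsum π, ?_⟩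
  rw [injective_iff_map_eq_zero]
  intro x hx
  have e1 : dsum π x (lp.single 2 x (ξ x)) x = π x x (ξ x) := by
    rw [dsum_apply, lp.single_apply_self]
  rw [hx] at e1
  have e2 : ‖x‖ = 0 := by
    rw [← hπ x, ← e1]
    show ‖(0 : K x)‖ = 0
    exact norm_zero
  exact norm_eq_zero.1 e2

/-- Nuclear algebras are exact. -/
theorem isExactAlg_of_isNuclear {D : Type} [CStarAlgebra D] [Nontrivial D] (h : IsNuclear D) :
    IsExactAlg D := by
  obtain ⟨K, _, _, _, π, hπ⟩ := exists_faithful_rep D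
  refine ⟨K, inferInstance, inferInstance, inferInstance, π, hπ, fun F ε hε => ?_⟩
  obtain ⟨k, α, β, hα, hβ, hα1, hβ1, happ⟩ := h F ε hε
  refine ⟨k, α, (π : D →ₗ[ℂ] (K →L[ℂ] K)).comp β, hα, ?_, hα1, ?_, ?_⟩
  · intro n X
    obtain ⟨Y, hY⟩ := hβ n X
    refine ⟨Y.map π, fun i j => ?_⟩
    show π (β ((X.conjTranspose * X) i j)) = _
    rw [hY, Matrix.mul_apply, Matrix.mul_apply, map_sum]
    refine Finset.sum_congr rfl fun l _ => ?_
    rw [map_mul, Matrix.conjTranspose_apply, Matrix.conjTranspose_apply, Matrix.map_apply,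
      Matrix.map_apply, map_star]
  · show π (β 1) = 1
    rw [hβ1, map_one]
  · intro d hd
    show ‖π (β (α d)) - π d‖ < ε
    rw [← map_sub]
    exact lt_of_le_of_lt (NonUnitalStarAlgHom.norm_apply_le π _) (happ d hd)

/-- Nuclear algebras, exact algebras and the Cuntz algebra `O₂` have faithful representations
with slices. -/
theorem exists_sliceRep (B : Type) [CStarAlgebra B] [Nontrivial B]
    (h : IsExactAlg B ∨ IsNuclear B ∨ ∃ s₁ s₂ : B, CuntzTwo s₁ s₂) :
    ∃ (K : Type) (_ : NormedAddCommGroup K) (_ : InnerProductSpace ℂ K) (_ : CompleteSpace K)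
      (_ : Nontrivial K) (π : B →⋆ₐ[ℂ] (K →L[ℂ] K)), Function.Injective π ∧ SliceRep π := by
  have hnt : ∀ (K : Type) [NormedAddCommGroup K] [InnerProductSpace ℂ K] [CompleteSpace K]
      (π : B →⋆ₐ[ℂ] (K →L[ℂ] K)), Function.Injective π → Nontrivial K := by
    intro K _ _ _ π hπ
    by_contra hcon
    rw [not_nontrivial_iff_subsingleton] at hcon
    have : π 1 = π 0 := by
      ext v
      exact Subsingleton.elim _ _
    exact one_ne_zero (hπ this)
  have hex : IsExactAlg B → ∃ (K : Type) (_ : NormedAddCommGroup K) (_ : InnerProductSpace ℂ K)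
      (_ : CompleteSpace K) (_ : Nontrivial K) (π : B →⋆ₐ[ℂ] (K →L[ℂ] K)),
        Function.Injective π ∧ SliceRep π := by
    rintro ⟨K, _, _, _, π, hπ, hN⟩
    haveI := hnt K π hπ
    exact ⟨K, inferInstance, inferInstance, inferInstance, inferInstance, π, hπ, hN.sliceRep⟩
  rcases h with h | h | ⟨s₁, s₂, h⟩
  · exact hex h
  · exact hex (isExactAlg_of_isNuclear h)
  · obtain ⟨K, _, _, _, π, hπ⟩ := exists_faithful_rep B
    haveI := hnt K π hπ
    exact ⟨K, inferInstance, inferInstance, inferInstance, inferInstance, π, hπ,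
      sliceRep_of_cuntz h π⟩

end

end Vale.Agent.P083.H903
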