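import Vale.Agent.P083.H903.Stine

/-!
# Slices of a nuclear representation
-/

set_option linter.all false

namespace Vale.Agent.P083.H903

open scoped ComplexOrder InnerProductSpace
open Vale.Agent.P083

noncomputable section

theorem _root_.HasSum.congr_fun' {M : Type} {f g : M → ℝ} {a : ℝ} (h : HasSum f a)
    (hfg : ∀ m, f m = g m) : HasSum g a := by
  have : f = g := funext hfg
  rwa [this] at h

section family

variable {K₀ K₁ : Type} [NormedAddCommGroup K₀] [InnerProductSpace ℂ K₀] [CompleteSpace K₀]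
  [NormedAddCommGroup K₁] [InnerProductSpace ℂ K₁] [CompleteSpace K₁]

/-- the column `j` of the Choi decomposition -/
def col {k : ℕ} (Y : Fin k → Fin k → (K₀ →L[ℂ] K₀)) (j : Fin k) (ξ : K₀) :
    PiLp 2 (fun _ : Fin k => K₀) := WithLp.toLp 2 fun l => Y l j ξ

theorem col_add {k : ℕ} (Y : Fin k → Fin k → (K₀ →L[ℂ] K₀)) (j : Fin k) (ξ η : K₀) :
    col Y j (ξ + η) = col Y j ξ + col Y j η := by
  ext l
  simp [col]

theorem col_smul {k : ℕ} (Y : Fin k → Fin k → (K₀ →L[ℂ] K₀)) (j : Fin k) (c : ℂ) (ξ : K₀) :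
    col Y j (c • ξ) = c • col Y j ξ := by
  ext l
  simp [col]

theorem inner_col {k : ℕ} (Y : Fin k → Fin k → (K₀ →L[ℂ] K₀)) (i j : Fin k) (ξ η : K₀) :
    ⟪col Y i ξ, col Y j η⟫_ℂ = ∑ l, ⟪Y l i ξ, Y l j η⟫_ℂ := by
  rw [PiLp.inner_apply]
  rfl

/-- the slices -/
def slc {k : ℕ} {M : Type} (b : HilbertBasis M ℂ (PiLp 2 (fun _ : Fin k => K₀)))
    (Y : Fin k → Fin k → (K₀ →L[ℂ] K₀)) (w : Fin k → K₁) (m : M) : K₀ →ₗ[ℂ] K₁ where
  toFun ξ := ∑ j, ⟪b m, col Y j ξ⟫_ℂ • w j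
  map_add' ξ η := by
    simp only [col_add, inner_add_right, add_smul, Finset.sum_add_distrib]
  map_smul' c ξ := by
    simp only [col_smul, inner_smul_right, mul_smul, Finset.smul_sum, RingHom.id_apply]

theorem slc_apply {k : ℕ} {M : Type} (b : HilbertBasis M ℂ (PiLp 2 (fun _ : Fin k => K₀)))
    (Y : Fin k → Fin k → (K₀ →L[ℂ] K₀)) (w : Fin k → K₁) (m : M) (ξ : K₀) :
    slc b Y w m ξ = ∑ j, ⟪b m, col Y j ξ⟫_ℂ • w j := rfl

theorem hasSum_slc {k : ℕ} {M : Type} (b : HilbertBasis M ℂ (PiLp 2 (fun _ : Fin k => K₀)))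
    (Y : Fin k → Fin k → (K₀ →L[ℂ] K₀)) (w : Fin k → K₁) (T : K₁ →L[ℂ] K₁) (ξ η : K₀) :
    HasSum (fun m => ⟪slc b Y w m ξ, T (slc b Y w m η)⟫_ℂ)
      (∑ i, ∑ j, ⟪col Y i ξ, col Y j η⟫_ℂ * ⟪w i, T (w j)⟫_ℂ) := by
  have h1 : ∀ m, ⟪slc b Y w m ξ, T (slc b Y w m η)⟫_ℂ
      = ∑ i, ∑ j, (⟪col Y i ξ, b m⟫_ℂ * ⟪b m, col Y j η⟫_ℂ) * ⟪w i, T (w j)⟫_ℂ := by
    intro m
    rw [slc_apply, slc_apply, map_sum, sum_inner]
    refine Finset.sum_congr rfl fun i _ => ?_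
    rw [inner_sum]
    refine Finset.sum_congr rfl fun j _ => ?_
    rw [map_smul, inner_smul_left, inner_smul_right, inner_conj_symm]
    ring
  simp only [h1]
  refine hasSum_sum fun i _ => hasSum_sum fun j _ => ?_
  exact (b.hasSum_inner_mul_inner (col Y i ξ) (col Y j η)).mul_right _

end family

/-- The slices of a representation which is approximated by completely positive maps through
matrix algebras. -/
theorem exists_family {D : Type} [CStarAlgebra D] {K₀ : Type} [NormedAddCommGroup K₀]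
    [InnerProductSpace ℂ K₀] [CompleteSpace K₀] [Nontrivial K₀]
    (π : D →⋆ₐ[ℂ] (K₀ →L[ℂ] K₀)) {k : ℕ} {α : D →ₗ[ℂ] Matrix (Fin k) (Fin k) ℂ}
    {β : Matrix (Fin k) (Fin k) ℂ →ₗ[ℂ] (K₀ →L[ℂ] K₀)} (hα : IsCP α) (hβ : IsCP β)
    (hα1 : α 1 = 1) (hβ1 : β 1 = 1) :
    ∃ (K₁ : Type) (_ : NormedAddCommGroup K₁) (_ : InnerProductSpace ℂ K₁)
      (_ : CompleteSpace K₁) (ρ : D →⋆ₐ[ℂ] (K₁ →L[ℂ] K₁)) (M : Type) (S : M → K₀ →ₗ[ℂ] K₁)
      (V : Submodule ℂ K₁), FiniteDimensional ℂ V ∧ (∀ m ξ, S m ξ ∈ V) ∧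
      (∀ ξ, HasSum (fun m => ‖S m ξ‖ ^ 2) (‖ξ‖ ^ 2)) ∧
      ∀ (x : D) (ε : ℝ), 0 ≤ ε → ‖β (α x) - π x‖ ≤ ε → ‖β (α (star x * x)) - π (star x * x)‖ ≤ ε →
        ∀ ξ, ∃ t, t ≤ ε * (1 + 2 * ‖x‖) * ‖ξ‖ ^ 2 ∧
          HasSum (fun m => ‖ρ x (S m ξ) - S m (π x ξ)‖ ^ 2) t := by
  have hk : 0 < k := by
    rcases Nat.eq_zero_or_pos k with h | h
    · subst h
      have h1 : (1 : Matrix (Fin 0) (Fin 0) ℂ) = 0 := Subsingleton.elim _ _
      rw [h1, map_zero] at hβ1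
      exact absurd hβ1.symm one_ne_zero
    · exact h
  obtain ⟨K₁, _, _, _, ρ, w, hw⟩ := stinespring hk hα
  obtain ⟨Y, hY⟩ := choi hk hβ
  obtain ⟨M, b, -⟩ := exists_hilbertBasis ℂ (PiLp 2 (fun _ : Fin k => K₀))
  -- the key formula
  have key : ∀ (x : D) (ξ η : K₀), HasSum (fun m => ⟪slc b Y w m ξ, ρ x (slc b Y w m η)⟫_ℂ)
      ⟪ξ, β (α x) η⟫_ℂ := by
    intro x ξ η
    have h1 := hasSum_slc b Y w (ρ x) ξ η
    have h2 : (∑ i, ∑ j, ⟪col Y i ξ, col Y j η⟫_ℂ * ⟪w i, ρ x (w j)⟫_ℂ) = ⟪ξ, β (α x) η⟫_ℂ := by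
      rw [hY]
      simp only [ContinuousLinearMap.sum_apply, ContinuousLinearMap.smul_apply, inner_sum,
        inner_smul_right]
      refine Finset.sum_congr rfl fun i _ => Finset.sum_congr rfl fun j _ => ?_
      rw [hw, inner_col, mul_comm]
      congr 1
      refine Finset.sum_congr rfl fun l _ => ?_
      rw [ContinuousLinearMap.star_eq_adjoint]
      show _ = ⟪ξ, ContinuousLinearMap.adjoint (Y l i) (Y l j η)⟫_ℂ
      rw [ContinuousLinearMap.adjoint_inner_right]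
    rw [h2] at h1
    exact h1
  have key1 : ∀ ξ η : K₀, HasSum (fun m => ⟪slc b Y w m ξ, slc b Y w m η⟫_ℂ) ⟪ξ, η⟫_ℂ := by
    intro ξ η
    have := key 1 ξ η
    rw [map_one, hα1, hβ1] at this
    exact this
  have hnorm : ∀ ξ, HasSum (fun m => ‖slc b Y w m ξ‖ ^ 2) (‖ξ‖ ^ 2) := by
    intro ξ
    have h := (key1 ξ ξ).mapL Complex.reCLM
    have e1 : ∀ {E : Type} [NormedAddCommGroup E] [InnerProductSpace ℂ E] (v : E),
        (⟪v, v⟫_ℂ).re = ‖v‖ ^ 2 := by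
      intro E _ _ v
      rw [inner_self_eq_norm_sq_to_K]
      norm_cast
    have e2 : Complex.reCLM ⟪ξ, ξ⟫_ℂ = ‖ξ‖ ^ 2 := e1 ξ
    rw [e2] at h
    convert h using 2 with m
    exact (e1 _).symm
  refine ⟨K₁, inferInstance, inferInstance, inferInstance, ρ, M, slc b Y w,
    Submodule.span ℂ (Set.range w), FiniteDimensional.span_of_finite ℂ (Set.finite_range w),
    fun m ξ => ?_, hnorm, ?_⟩
  · rw [slc_apply]
    exact Submodule.sum_mem _ fun j _ => Submodule.smul_mem _ _ (Submodule.subset_span ⟨j, rfl⟩)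
  · intro x ε hε h1 h2 ξ
    refine ⟨(⟪ξ, β (α (star x * x)) ξ⟫_ℂ).re - 2 * (⟪π x ξ, β (α x) ξ⟫_ℂ).re + ‖π x ξ‖ ^ 2,
      ?_, ?_⟩
    · have hx : ‖π x ξ‖ ≤ ‖x‖ * ‖ξ‖ := (ContinuousLinearMap.le_opNorm _ _).trans (by
        gcongr
        exact NonUnitalStarAlgHom.norm_apply_le π x)
      have a1 : (⟪ξ, β (α (star x * x)) ξ⟫_ℂ).re ≤ ‖π x ξ‖ ^ 2 + ε * ‖ξ‖ ^ 2 := by
        have e1 : ⟪ξ, β (α (star x * x)) ξ⟫_ℂ = ⟪ξ, (β (α (star x * x)) - π (star x * x)) ξ⟫_ℂ +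
            ⟪ξ, π (star x * x) ξ⟫_ℂ := by
          rw [← inner_add_right]
          congr 1
          show _ = (β (α (star x * x)) ξ - π (star x * x) ξ) + π (star x * x) ξ
          abel
        have e2 : ⟪ξ, π (star x * x) ξ⟫_ℂ = ⟪π x ξ, π x ξ⟫_ℂ := by
          rw [map_mul, map_star, ContinuousLinearMap.star_eq_adjoint]
          show ⟪ξ, ContinuousLinearMap.adjoint (π x) (π x ξ)⟫_ℂ = _
          rw [ContinuousLinearMap.adjoint_inner_right]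
        have e3 : (⟪π x ξ, π x ξ⟫_ℂ).re = ‖π x ξ‖ ^ 2 := by
          rw [inner_self_eq_norm_sq_to_K]
          norm_cast
        have e4 : (⟪ξ, (β (α (star x * x)) - π (star x * x)) ξ⟫_ℂ).re ≤ ε * ‖ξ‖ ^ 2 := by
          refine (Complex.re_le_norm _).trans ((norm_inner_le_norm _ _).trans ?_)
          calc ‖ξ‖ * ‖(β (α (star x * x)) - π (star x * x)) ξ‖
              ≤ ‖ξ‖ * (ε * ‖ξ‖) := by
                gcongr
                exact (ContinuousLinearMap.le_opNorm _ _).trans (by gcongr)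
            _ = ε * ‖ξ‖ ^ 2 := by ring
        rw [e1, Complex.add_re, e2, e3]
        linarith
      have a2 : ‖π x ξ‖ ^ 2 - ε * ‖x‖ * ‖ξ‖ ^ 2 ≤ (⟪π x ξ, β (α x) ξ⟫_ℂ).re := by
        have e1 : ⟪π x ξ, β (α x) ξ⟫_ℂ = ⟪π x ξ, π x ξ⟫_ℂ - ⟪π x ξ, (π x - β (α x)) ξ⟫_ℂ := by
          rw [← inner_sub_right]
          congr 1
          show _ = π x ξ - (π x ξ - β (α x) ξ)
          abel
        have e3 : (⟪π x ξ, π x ξ⟫_ℂ).re = ‖π x ξ‖ ^ 2 := by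
          rw [inner_self_eq_norm_sq_to_K]
          norm_cast
        have e4 : (⟪π x ξ, (π x - β (α x)) ξ⟫_ℂ).re ≤ ε * ‖x‖ * ‖ξ‖ ^ 2 := by
          refine (Complex.re_le_norm _).trans ((norm_inner_le_norm _ _).trans ?_)
          calc ‖π x ξ‖ * ‖(π x - β (α x)) ξ‖ ≤ (‖x‖ * ‖ξ‖) * (ε * ‖ξ‖) := by
                gcongr
                refine (ContinuousLinearMap.le_opNorm _ _).trans ?_
                rw [norm_sub_rev] at h1
                gcongr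
            _ = ε * ‖x‖ * ‖ξ‖ ^ 2 := by ring
        rw [e1, Complex.sub_re, e3]
        linarith
      nlinarith only [a1, a2]
    · have h3 := (key (star x * x) ξ ξ).mapL Complex.reCLM
      have h4 := ((key x (π x ξ) ξ).mapL Complex.reCLM).mul_left 2
      have h5 := (h3.sub h4).add (hnorm (π x ξ))
      refine h5.congr_fun' fun m => ?_
      rw [norm_sub_sq (𝕜 := ℂ)]
      have f1 : (⟪slc b Y w m ξ, ρ (star x * x) (slc b Y w m ξ)⟫_ℂ).re = ‖ρ x (slc b Y w m ξ)‖ ^ 2 := by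
        have e2 : ⟪slc b Y w m ξ, ρ (star x * x) (slc b Y w m ξ)⟫_ℂ
            = ⟪ρ x (slc b Y w m ξ), ρ x (slc b Y w m ξ)⟫_ℂ := by
          rw [map_mul, map_star, ContinuousLinearMap.star_eq_adjoint]
          show ⟪slc b Y w m ξ, ContinuousLinearMap.adjoint (ρ x) (ρ x (slc b Y w m ξ))⟫_ℂ = _
          rw [ContinuousLinearMap.adjoint_inner_right]
        rw [e2, inner_self_eq_norm_sq_to_K]
        norm_cast
      have f2 : (⟪slc b Y w m (π x ξ), ρ x (slc b Y w m ξ)⟫_ℂ).re =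
          (⟪ρ x (slc b Y w m ξ), slc b Y w m (π x ξ)⟫_ℂ).re := by
        rw [← inner_conj_symm, Complex.conj_re]
      show (⟪slc b Y w m ξ, ρ (star x * x) (slc b Y w m ξ)⟫_ℂ).re -
        2 * (⟪slc b Y w m (π x ξ), ρ x (slc b Y w m ξ)⟫_ℂ).re + _ = _
      rw [f1, f2]
      rfl

/-- **Slicing** with two Hilbert spaces. -/
theorem slice2 {K₀ K₁ : Type} [NormedAddCommGroup K₀] [InnerProductSpace ℂ K₀]
    [NormedAddCommGroup K₁] [InnerProductSpace ℂ K₁]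
    {M : Type} {S : M → K₀ →ₗ[ℂ] K₁} {F : Submodule ℂ K₁}
    (hF : ∀ m k, S m k ∈ F) (hS : ∀ k, HasSum (fun m => ‖S m k‖ ^ 2) (‖k‖ ^ 2))
    {n : Type} [Fintype n] [Nonempty n] {u : n → K₀ →L[ℂ] K₀} {u' : n → K₁ →L[ℂ] K₁} {η ε : ℝ}
    (hu : ∀ i k, ∃ t, t ≤ η ^ 2 * ‖k‖ ^ 2 ∧ HasSum (fun m => ‖u' i (S m k) - S m (u i k)‖ ^ 2) t)
    {W : Type} [Fintype W] (σ : n → W → W) (c : n → W → ℂ) (hc : ∀ i w, ‖c i w‖ ≤ 1)
    (ζ : W → K₀) (hζ : ∑ w, ‖ζ w‖ ^ 2 = 1)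
    (hinv : ∀ i, ∑ w, ‖c i w • u i (ζ w) - ζ (σ i w)‖ ^ 2 ≤ ε) :
    ∃ y : W → K₁, (∀ w, y w ∈ F) ∧ ∑ w, ‖y w‖ ^ 2 = 1 ∧
      ∀ i, ∑ w, ‖c i w • u' i (y w) - y (σ i w)‖ ^ 2 ≤ Fintype.card n * (2 * η ^ 2 + 2 * ε) := by
  have hsum1 : HasSum (fun l => ∑ w, ‖S l (ζ w)‖ ^ 2) 1 := by
    rw [← hζ]
    exact hasSum_sum fun w _ => hS (ζ w)
  -- the defects
  have hD : ∀ i w, ∃ t, t ≤ 2 * (η ^ 2 * ‖ζ w‖ ^ 2) + 2 * ‖c i w • u i (ζ w) - ζ (σ i w)‖ ^ 2 ∧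
      HasSum (fun l => ‖c i w • u' i (S l (ζ w)) - S l (ζ (σ i w))‖ ^ 2) t := by
    intro i w
    obtain ⟨t, ht, hs⟩ := hu i (ζ w)
    have hs2 := hS (c i w • u i (ζ w) - ζ (σ i w))
    have hb : ∀ l, ‖c i w • u' i (S l (ζ w)) - S l (ζ (σ i w))‖ ^ 2 ≤
        2 * ‖u' i (S l (ζ w)) - S l (u i (ζ w))‖ ^ 2 +
          2 * ‖S l (c i w • u i (ζ w) - ζ (σ i w))‖ ^ 2 := by
      intro l
      have e1 : c i w • u' i (S l (ζ w)) - S l (ζ (σ i w)) =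
          c i w • (u' i (S l (ζ w)) - S l (u i (ζ w))) +
            S l (c i w • u i (ζ w) - ζ (σ i w)) := by
        rw [map_sub, map_smul, smul_sub]
        abel
      have e2 : ‖c i w • (u' i (S l (ζ w)) - S l (u i (ζ w)))‖ ≤
          ‖u' i (S l (ζ w)) - S l (u i (ζ w))‖ := by
        rw [norm_smul]
        calc _ ≤ 1 * ‖u' i (S l (ζ w)) - S l (u i (ζ w))‖ := by gcongr; exact hc i w
          _ = _ := one_mul _
      rw [e1]
      have e4 := norm_add_le (c i w • (u' i (S l (ζ w)) - S l (u i (ζ w))))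
        (S l (c i w • u i (ζ w) - ζ (σ i w)))
      have e5 : ‖c i w • (u' i (S l (ζ w)) - S l (u i (ζ w))) +
            S l (c i w • u i (ζ w) - ζ (σ i w))‖ ≤
          ‖u' i (S l (ζ w)) - S l (u i (ζ w))‖ + ‖S l (c i w • u i (ζ w) - ζ (σ i w))‖ :=
        e4.trans (by (clear * - e2; gcongr))
      have e6 := pow_le_pow_left₀ (norm_nonneg _) e5 2
      nlinarith only [e6, sq_nonneg (‖u' i (S l (ζ w)) - S l (u i (ζ w))‖ -
        ‖S l (c i w • u i (ζ w) - ζ (σ i w))‖)]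
    have hs3 := (hs.mul_left 2).add (hs2.mul_left 2)
    have hsm : Summable (fun l => ‖c i w • u' i (S l (ζ w)) - S l (ζ (σ i w))‖ ^ 2) :=
      Summable.of_nonneg_of_le (fun _ => by positivity) hb hs3.summable
    refine ⟨_, ?_, hsm.hasSum⟩
    refine (hasSum_le hb hsm.hasSum hs3).trans ?_
    gcongr
  choose t ht hts using hD
  have hDle : ∀ i, ∑ w, t i w ≤ 2 * η ^ 2 + 2 * ε := by
    intro i
    refine (Finset.sum_le_sum fun w _ => ht i w).trans ?_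
    rw [Finset.sum_add_distrib, ← Finset.mul_sum, ← Finset.mul_sum, ← Finset.mul_sum, hζ]
    linarith only [hinv i]
  have hsum2 : HasSum (fun l => ∑ i, ∑ w, ‖c i w • u' i (S l (ζ w)) - S l (ζ (σ i w))‖ ^ 2)
      (∑ i, ∑ w, t i w) := hasSum_sum fun i _ => hasSum_sum fun w _ => hts i w
  set C : ℝ := Fintype.card n * (2 * η ^ 2 + 2 * ε) with hC
  have hC2 : ∑ i, ∑ w, t i w ≤ C := by
    refine (Finset.sum_le_sum fun i _ => hDle i).trans ?_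
    rw [Finset.sum_const, Finset.card_univ, nsmul_eq_mul]
  -- a good coordinate
  obtain ⟨l, hl0, hl⟩ : ∃ l, ∑ w, ‖S l (ζ w)‖ ^ 2 ≠ 0 ∧
      ∑ i, ∑ w, ‖c i w • u' i (S l (ζ w)) - S l (ζ (σ i w))‖ ^ 2 ≤ C * ∑ w, ‖S l (ζ w)‖ ^ 2 := by
    by_contra hcon
    push Not at hcon
    have h3 : ∀ l, C * ∑ w, ‖S l (ζ w)‖ ^ 2 ≤
        ∑ i, ∑ w, ‖c i w • u' i (S l (ζ w)) - S l (ζ (σ i w))‖ ^ 2 := by
      intro l
      by_cases h0 : ∑ w, ‖S l (ζ w)‖ ^ 2 = 0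
      · rw [h0, mul_zero]
        (clear * -; positivity)
      · exact (hcon l h0).le
    obtain ⟨l, hl⟩ : ∃ l, ∑ w, ‖S l (ζ w)‖ ^ 2 ≠ 0 := by
      by_contra h0
      push Not at h0
      have h1 := hsum1
      simp only [h0] at h1
      exact zero_ne_one (hasSum_zero.unique h1)
    have h4 := hasSum_lt h3 (hcon l hl) (hsum1.mul_left C) hsum2
    rw [mul_one] at h4
    exact absurd hC2 (not_le.2 h4)
  set r : ℝ := √(∑ w, ‖S l (ζ w)‖ ^ 2) with hr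
  have hpos : 0 < ∑ w, ‖S l (ζ w)‖ ^ 2 :=
    lt_of_le_of_ne (Finset.sum_nonneg fun w _ => by (clear * -; positivity)) (Ne.symm hl0)
  have hr0 : 0 < r := Real.sqrt_pos.2 hpos
  have hr2 : r ^ 2 = ∑ w, ‖S l (ζ w)‖ ^ 2 := Real.sq_sqrt hpos.le
  refine ⟨fun w => ((r⁻¹ : ℝ) : ℂ) • S l (ζ w), fun w => F.smul_mem _ (hF _ _), ?_, fun i => ?_⟩
  · have : ∀ w, ‖((r⁻¹ : ℝ) : ℂ) • S l (ζ w)‖ ^ 2 = (r ^ 2)⁻¹ * ‖S l (ζ w)‖ ^ 2 := by
      intro w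
      rw [norm_smul, Complex.norm_real, Real.norm_eq_abs, abs_of_pos (by (clear * - hr0; positivity)),
        mul_pow, inv_pow]
    rw [Finset.sum_congr rfl fun w _ => this w, ← Finset.mul_sum, ← hr2,
      inv_mul_cancel₀ (by (clear * - hr0; positivity))]
  · have : ∀ w, ‖c i w • u' i (((r⁻¹ : ℝ) : ℂ) • S l (ζ w)) -
        ((r⁻¹ : ℝ) : ℂ) • S l (ζ (σ i w))‖ ^ 2 =
        (r ^ 2)⁻¹ * ‖c i w • u' i (S l (ζ w)) - S l (ζ (σ i w))‖ ^ 2 := by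
      intro w
      rw [map_smul, smul_comm, ← smul_sub, norm_smul, Complex.norm_real, Real.norm_eq_abs,
        abs_of_pos (by (clear * - hr0; positivity)), mul_pow, inv_pow]
    rw [Finset.sum_congr rfl fun w _ => this w, ← Finset.mul_sum]
    have h5 : ∑ w, ‖c i w • u' i (S l (ζ w)) - S l (ζ (σ i w))‖ ^ 2 ≤ C * r ^ 2 := by
      rw [hr2]
      refine le_trans ?_ hl
      exact Finset.single_le_sum
        (f := fun i => ∑ w, ‖c i w • u' i (S l (ζ w)) - S l (ζ (σ i w))‖ ^ 2)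
        (fun i _ => Finset.sum_nonneg fun w _ => by (clear * -; positivity)) (Finset.mem_univ i)
    calc (r ^ 2)⁻¹ * ∑ w, ‖c i w • u' i (S l (ζ w)) - S l (ζ (σ i w))‖ ^ 2
        ≤ (r ^ 2)⁻¹ * (C * r ^ 2) := by (clear * - h5 hr0; gcongr)
      _ = C := by (clear * - hr0; field_simp)

end

end Vale.Agent.P083.H903
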