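import Vale.Agent.P083.H903.Slice
import Vale.Agent.P083.H903.Gram
import Vale.Agent.P083.H903.Defs

/-!
# No stage with a nuclear representation is good
-/

set_option linter.all false

open Filter Topology
open scoped ENNReal InnerProductSpace ComplexConjugate

namespace Vale.Agent.P083.H903

open Vale.Agent.P083 Vale.Agent.P083N

noncomputable section

/-- the spectral gap contradiction for functions of two words -/
theorem no_function {p : ℕ} [Fact p.Prime] (hp : 100 ≤ p) (hp2 : p ≤ 101)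
    {χ : AddChar (ZMod p) Circle} (hχ : Function.Injective χ) (j : ℕ) {N : ℝ}
    (hj : 2 * N < (p : ℝ) ^ j) (f : Wd p j → Wd p j → ℂ)
    (hf1 : ∑ x, ∑ x', ‖f x x'‖ ^ 2 = 1)
    (hf2 : ∀ c : ℂ, ‖c‖ ^ 2 * ((Fintype.card (Wd p j) : ℝ) - N)
        ≤ ∑ w, ∑ w', ‖f w w' - (if w = w' then c else 0)‖ ^ 2)
    {η : ℝ} (hη : η = 1 / 10 ^ 8)
    (hinv : ∀ g, ∑ x, ∑ x', ‖f ((gl j g).map x) ((gl j g).map x')
        - ((χ ((gl j g).ph x - (gl j g).ph x') : Circle) : ℂ) * f x x'‖ ^ 2 ≤ 10 * η) : False := by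
  classical
  obtain ⟨c, hc⟩ := hs_gap hp hχ j f
  have hsum : ∑ g, ∑ x, ∑ x', ‖f ((gl j g).map x) ((gl j g).map x')
        - ((χ ((gl j g).ph x - (gl j g).ph x') : Circle) : ℂ) * f x x'‖ ^ 2 ≤ 60 * η := by
    refine (Finset.sum_le_sum fun g _ => hinv g).trans ?_
    rw [Finset.sum_const, Finset.card_univ, Gen.card]
    simp only [nsmul_eq_mul]
    norm_num
    linarith
  have hp3 : (p : ℝ) ^ 2 ≤ 101 ^ 2 := by
    have : (p : ℝ) ≤ 101 := by exact_mod_cast hp2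
    have h0 : (0 : ℝ) ≤ p := Nat.cast_nonneg _
    exact pow_le_pow_left₀ h0 this 2
  have hclose : ∑ x, ∑ x', ‖f x x' - (if x = x' then c else 0)‖ ^ 2 ≤ 1 / 16 := by
    refine hc.trans ?_
    have h3 : (p : ℝ) ^ 2 * ∑ g, ∑ x, ∑ x', ‖f ((gl j g).map x) ((gl j g).map x')
        - ((χ ((gl j g).ph x - (gl j g).ph x') : Circle) : ℂ) * f x x'‖ ^ 2
        ≤ 101 ^ 2 * (60 * η) :=
      mul_le_mul hp3 hsum (Finset.sum_nonneg fun _ _ => Finset.sum_nonneg fun _ _ =>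
        Finset.sum_nonneg fun _ _ => sq_nonneg _) (by norm_num)
    refine h3.trans ?_
    rw [hη]; norm_num
  -- the scalar part is large
  have hcard : (Fintype.card (Wd p j) : ℝ) = (p : ℝ) ^ j := by
    simp only [Wd, Fintype.card_pi, ZMod.card, Finset.prod_const, Finset.card_univ,
      Fintype.card_fin, Nat.cast_pow]
  have hbig : 1 / 2 ≤ ‖c‖ ^ 2 * (p : ℝ) ^ j := by
    have h4 : ∑ x : Wd p j, ∑ x' : Wd p j, ‖f x x'‖ ^ 2
        ≤ (1 + 1 / 4) * (∑ x, ∑ x' : Wd p j, ‖(if x = x' then c else 0 : ℂ)‖ ^ 2)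
          + (1 + 4) * ∑ x, ∑ x', ‖f x x' - (if x = x' then c else 0)‖ ^ 2 := by
      simp only [Finset.mul_sum]
      rw [← Finset.sum_add_distrib]
      refine Finset.sum_le_sum fun x _ => ?_
      rw [← Finset.sum_add_distrib]
      refine Finset.sum_le_sum fun x' _ => ?_
      have h5 : ‖f x x'‖ ≤ ‖(if x = x' then c else 0 : ℂ)‖
          + ‖f x x' - (if x = x' then c else 0)‖ := by
        have := norm_add_le (if x = x' then c else 0 : ℂ) (f x x' - (if x = x' then c else 0))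
        simpa only [ge_iff_le, add_sub_cancel] using this
      nlinarith only [h5, sq_nonneg (‖(if x = x' then c else 0 : ℂ)‖
        - 4 * ‖f x x' - (if x = x' then c else 0)‖), norm_nonneg (f x x')]
    have h6 : ∑ x : Wd p j, ∑ x' : Wd p j, ‖(if x = x' then c else 0 : ℂ)‖ ^ 2
        = ‖c‖ ^ 2 * (p : ℝ) ^ j := by
      have : ∀ x : Wd p j, ∑ x' : Wd p j, ‖(if x = x' then c else 0 : ℂ)‖ ^ 2 = ‖c‖ ^ 2 := by
        intro x
        rw [Finset.sum_eq_single x]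
        · simp
        · intro b _ hb
          simp [Ne.symm hb]
        · simp only [Finset.mem_univ, not_true_eq_false, ↓reduceIte, ne_eq,
            OfNat.ofNat_ne_zero, not_false_eq_true, pow_eq_zero_iff, norm_eq_zero,
            IsEmpty.forall_iff]
      rw [Finset.sum_congr rfl fun x _ => this x, Finset.sum_const, Finset.card_univ,
        nsmul_eq_mul, hcard, mul_comm]
    rw [hf1, h6] at h4
    linarith
  have hlow := (hf2 c).trans hclose
  rw [hcard] at hlow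
  have hc0 : 0 ≤ ‖c‖ ^ 2 := by positivity
  nlinarith only [hlow, hbig, hj, hc0]

/-- A representation with finite dimensional slices: it is almost intertwined with another
representation by isometries `K₀ → l²(M, K₁)` with coordinates in a finite dimensional space. -/
def SliceRep {B : Type} [CStarAlgebra B] {K₀ : Type} [NormedAddCommGroup K₀]
    [InnerProductSpace ℂ K₀] [CompleteSpace K₀] (π : B →⋆ₐ[ℂ] (K₀ →L[ℂ] K₀)) : Prop :=
  ∀ (F : Finset B) (δ : ℝ), 0 < δ →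
    ∃ (K₁ : Type) (_ : NormedAddCommGroup K₁) (_ : InnerProductSpace ℂ K₁)
      (_ : CompleteSpace K₁) (ρ : B →⋆ₐ[ℂ] (K₁ →L[ℂ] K₁)) (M : Type) (S : M → K₀ →ₗ[ℂ] K₁)
      (V : Submodule ℂ K₁), FiniteDimensional ℂ V ∧ (∀ m ξ, S m ξ ∈ V) ∧
      (∀ ξ, HasSum (fun m => ‖S m ξ‖ ^ 2) (‖ξ‖ ^ 2)) ∧
      ∀ x ∈ F, ∀ ξ, ∃ t, t ≤ δ ^ 2 * ‖ξ‖ ^ 2 ∧
          HasSum (fun m => ‖ρ x (S m ξ) - S m (π x ξ)‖ ^ 2) t

/-- A nuclear representation has slices. -/
theorem NucRep.sliceRep {B : Type} [CStarAlgebra B] {K₀ : Type} [NormedAddCommGroup K₀]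
    [InnerProductSpace ℂ K₀] [CompleteSpace K₀] [Nontrivial K₀] {π : B →⋆ₐ[ℂ] (K₀ →L[ℂ] K₀)}
    (hπ : NucRep π) : SliceRep π := by
  classical
  intro F δ hδ0
  set C : ℝ := ∑ x ∈ F, ‖x‖ with hC
  have hC0 : 0 ≤ C := Finset.sum_nonneg fun _ _ => norm_nonneg _
  set ε : ℝ := δ ^ 2 / (1 + 2 * C) with hε
  have hε0 : 0 < ε := by positivity
  obtain ⟨k, α, β, hα, hβ, hα1, hβ1, happ⟩ := hπ (F ∪ F.image (fun x => star x * x)) ε hε0
  obtain ⟨K₁, _, _, _, ρ, M, S, V, hV, hSV, hS, hSu⟩ := exists_family π hα hβ hα1 hβ1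
  refine ⟨K₁, inferInstance, inferInstance, inferInstance, ρ, M, S, V, hV, hSV, hS, ?_⟩
  intro x hx ξ
  obtain ⟨t, ht, hs⟩ := hSu x ε hε0.le (happ _ (Finset.mem_union_left _ hx)).le
    (happ _ (Finset.mem_union_right _ (Finset.mem_image_of_mem _ hx))).le ξ
  refine ⟨t, ht.trans ?_, hs⟩
  have h1 : ‖x‖ ≤ C := Finset.single_le_sum (f := fun x => ‖x‖) (fun _ _ => norm_nonneg _) hx
  have h3 : ε * (1 + 2 * ‖x‖) ≤ δ ^ 2 := by
    rw [hε, div_mul_eq_mul_div, div_le_iff₀ (by positivity)]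
    have := mul_le_mul_of_nonneg_left h1 (sq_nonneg δ)
    nlinarith only [this]
  exact mul_le_mul_of_nonneg_right h3 (sq_nonneg _)

/-- Every representation of the Cuntz algebra `O₂` has slices. -/
theorem sliceRep_of_cuntz {O : Type} [CStarAlgebra O] {s₁ s₂ : O} (h : CuntzTwo s₁ s₂)
    {K : Type} [NormedAddCommGroup K] [InnerProductSpace ℂ K] [CompleteSpace K] [Nontrivial K]
    (π : O →⋆ₐ[ℂ] (K →L[ℂ] K)) : SliceRep π := by
  intro F δ hδ
  obtain ⟨L, S, V, hV, hSV, hS, hSu⟩ := exists_slices h π F hδ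
  refine ⟨K, inferInstance, inferInstance, inferInstance, π, L, fun l => (S l).toLinearMap, V, hV,
    hSV, hS, fun x hx ξ => ?_⟩
  obtain ⟨h1, h2⟩ := hSu x hx ξ
  exact ⟨_, h2, h1.hasSum⟩

/-- **One stage**: almost invariant vectors at all levels cannot exist in a representation with
slices. -/
theorem no_stage {p : ℕ} [Fact p.Prime] (hp : 100 ≤ p) (hp2 : p ≤ 101)
    {χ : AddChar (ZMod p) Circle} (hχ : Function.Injective χ)
    {B : Type} [CStarAlgebra B] {K₀ : Type} [NormedAddCommGroup K₀] [InnerProductSpace ℂ K₀]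
    [CompleteSpace K₀] [Nontrivial K₀] (π : B →⋆ₐ[ℂ] (K₀ →L[ℂ] K₀)) (hπ : SliceRep π)
    (u : Gen → B) (e : B) (he : ‖e‖ ≤ 2) (h1 : ∀ g, ‖star (u g) * u g - e‖ ≤ 1 / 10 ^ 24)
    (h2 : ∀ g, ‖e * u g - u g‖ ≤ 1 / 10 ^ 24)
    (hz : ∀ j, ∃ ζ : Wd p j → K₀, ∑ x, ‖ζ x‖ ^ 2 = 1 ∧
      ∀ g, ∑ x, ‖((χ (-(gl j g).ph x) : Circle) : ℂ) • π (u g) (ζ x) - ζ ((gl j g).map x)‖ ^ 2
        ≤ 10 ^ 4 * (1 / 10 ^ 24)) : False := by
  classical
  obtain ⟨δ, hδ⟩ : ∃ δ : ℝ, δ = 1 / 10 ^ 24 := ⟨_, rfl⟩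
  rw [← hδ] at h1 h2 hz
  have hδ0 : 0 < δ := by rw [hδ]; positivity
  -- the slices
  obtain ⟨K₁, _, _, _, ρ, M, S, V, hV, hSV, hS, hSu⟩ := hπ (Finset.univ.image (fun g => u g)) δ hδ0
  -- a large level
  obtain ⟨j, hj⟩ : ∃ j : ℕ, 2 * (Module.finrank ℂ V : ℝ) < (p : ℝ) ^ j := by
    have : (1 : ℝ) < p := by
      have h2 : (100 : ℝ) ≤ p := by exact_mod_cast hp
      linarith only [h2]
    exact pow_unbounded_of_one_lt _ this
  obtain ⟨ζ, hζ1, hζ2⟩ := hz j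
  have hSu' : ∀ g (ξ : K₀), ∃ t, t ≤ δ ^ 2 * ‖ξ‖ ^ 2 ∧
      HasSum (fun m => ‖ρ (u g) (S m ξ) - S m (π (u g) ξ)‖ ^ 2) t :=
    fun g ξ => hSu (u g) (Finset.mem_image_of_mem _ (Finset.mem_univ g)) ξ
  haveI : Nonempty Gen := ⟨Gen.X⟩
  obtain ⟨y, hyV, hy1, hy2⟩ := slice2 (S := S) (F := V) hSV hS
    (u := fun g => π (u g)) (u' := fun g => ρ (u g)) (η := δ) (ε := 10 ^ 4 * δ) hSu'
    (fun g => (gl (p := p) j g).map) (fun g x => ((χ (-(gl j g).ph x) : Circle) : ℂ))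
    (fun g x => (Circle.norm_coe _).le) ζ hζ1 hζ2
  rw [Gen.card] at hy2
  haveI := hV
  obtain ⟨f, hf1, hf2, hf3⟩ := gram_step' V y hy1 hyV
  set η : ℝ := 1 / 10 ^ 8 with hη
  set κ : ℝ := 1 / 10 ^ 9 with hκ
  have hb1 : ∀ g, ∑ w, ‖((χ (-(gl j g).ph w) : Circle) : ℂ) • ρ (u g) (y w)
      - y ((gl j g).map w)‖ ^ 2 ≤ κ ^ 2 := by
    intro g
    refine (hy2 g).trans ?_
    rw [hδ, hκ]
    norm_num
  -- the isometry defect on the vectors
  have hρ : ∀ x : B, ‖ρ x‖ ≤ ‖x‖ := fun x => NonUnitalStarAlgHom.norm_apply_le ρ x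
  have hb2 : ∀ g, ∑ w, ‖(star (ρ (u g)) * ρ (u g) - 1) (y w)‖ ^ 2 ≤ η ^ 2 := by
    -- first: `(ρ e - 1) y` is small
    have hρe : ∑ w, ‖(ρ e - 1) (y w)‖ ^ 2 ≤ (4 * κ) ^ 2 := by
      have hbij := gl_bijective (p := p) j Gen.X
      have e0 : ∑ w, ‖(ρ e - 1) (y w)‖ ^ 2 = ∑ w, ‖(ρ e - 1) (y ((gl j Gen.X).map w))‖ ^ 2 :=
        (Equiv.sum_comp (Equiv.ofBijective _ hbij) (fun w => ‖(ρ e - 1) (y w)‖ ^ 2)).symm
      rw [e0]
      have e1 : ∀ w, ‖(ρ e - 1) (y ((gl j Gen.X).map w))‖ ^ 2 ≤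
          12 * ‖((χ (-(gl j Gen.X).ph w) : Circle) : ℂ) • ρ (u Gen.X) (y w)
            - y ((gl j Gen.X).map w)‖ ^ 2 + 4 * δ ^ 2 * ‖y w‖ ^ 2 := by
        intro w
        set c : ℂ := ((χ (-(gl j Gen.X).ph w) : Circle) : ℂ) with hc
        have hc1 : ‖c‖ = 1 := Circle.norm_coe _
        have e2 : (ρ e - 1) (y ((gl j Gen.X).map w)) =
            -((ρ e - 1) (c • ρ (u Gen.X) (y w) - y ((gl j Gen.X).map w))) +
              c • (ρ (e * u Gen.X - u Gen.X)) (y w) := by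
          rw [map_sub, map_smul, map_sub, map_mul]
          show _ = _ + c • ((ρ e * ρ (u Gen.X)) (y w) - ρ (u Gen.X) (y w))
          show _ = -(c • ((ρ e) (ρ (u Gen.X) (y w)) - ρ (u Gen.X) (y w)) - _) +
            c • ((ρ e) (ρ (u Gen.X) (y w)) - ρ (u Gen.X) (y w))
          abel
        have e3 : ‖(ρ e - 1) (c • ρ (u Gen.X) (y w) - y ((gl j Gen.X).map w))‖ ≤
            3 * ‖c • ρ (u Gen.X) (y w) - y ((gl j Gen.X).map w)‖ := by
          have : ‖(ρ e) (c • ρ (u Gen.X) (y w) - y ((gl j Gen.X).map w))‖ ≤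
              2 * ‖c • ρ (u Gen.X) (y w) - y ((gl j Gen.X).map w)‖ :=
            (ContinuousLinearMap.le_opNorm _ _).trans (by
              gcongr
              exact (hρ e).trans he)
          show ‖(ρ e) (c • ρ (u Gen.X) (y w) - y ((gl j Gen.X).map w)) -
            (c • ρ (u Gen.X) (y w) - y ((gl j Gen.X).map w))‖ ≤ _
          refine (norm_sub_le _ _).trans ?_
          linarith
        have e4 : ‖c • (ρ (e * u Gen.X - u Gen.X)) (y w)‖ ≤ δ * ‖y w‖ := by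
          rw [norm_smul, hc1, one_mul]
          exact (ContinuousLinearMap.le_opNorm _ _).trans (by
            gcongr
            exact (hρ _).trans (h2 Gen.X))
        have e5 : ‖(ρ e - 1) (y ((gl j Gen.X).map w))‖ ≤
            3 * ‖c • ρ (u Gen.X) (y w) - y ((gl j Gen.X).map w)‖ + δ * ‖y w‖ := by
          rw [e2]
          refine (norm_add_le _ _).trans ?_
          rw [norm_neg]
          exact add_le_add e3 e4
        have e6 := pow_le_pow_left₀ (norm_nonneg _) e5 2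
        nlinarith only [e6, sq_nonneg (‖c • ρ (u Gen.X) (y w) - y ((gl j Gen.X).map w)‖
          - δ * ‖y w‖), sq_nonneg (‖c • ρ (u Gen.X) (y w) - y ((gl j Gen.X).map w)‖),
          sq_nonneg (δ * ‖y w‖)]
      refine (Finset.sum_le_sum fun w _ => e1 w).trans ?_
      rw [Finset.sum_add_distrib, ← Finset.mul_sum, ← Finset.mul_sum, hy1]
      have := hb1 Gen.X
      have h7 : 12 * κ ^ 2 + 4 * δ ^ 2 * 1 ≤ (4 * κ) ^ 2 := by
        rw [hδ, hκ]
        norm_num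
      linarith
    intro g
    have e1 : ∀ w, ‖(star (ρ (u g)) * ρ (u g) - 1) (y w)‖ ^ 2 ≤
        2 * δ ^ 2 * ‖y w‖ ^ 2 + 2 * ‖(ρ e - 1) (y w)‖ ^ 2 := by
      intro w
      have e2 : (star (ρ (u g)) * ρ (u g) - 1) (y w) =
          (ρ (star (u g) * u g - e)) (y w) + (ρ e - 1) (y w) := by
        rw [map_sub, map_mul, map_star]
        show (star (ρ (u g)) * ρ (u g)) (y w) - y w =
          ((star (ρ (u g)) * ρ (u g)) (y w) - (ρ e) (y w)) + ((ρ e) (y w) - y w)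
        abel
      have e3 : ‖(ρ (star (u g) * u g - e)) (y w)‖ ≤ δ * ‖y w‖ :=
        (ContinuousLinearMap.le_opNorm _ _).trans (by
          gcongr
          exact (hρ _).trans (h1 g))
      have e4 : ‖(star (ρ (u g)) * ρ (u g) - 1) (y w)‖ ≤ δ * ‖y w‖ + ‖(ρ e - 1) (y w)‖ := by
        rw [e2]
        exact (norm_add_le _ _).trans (by gcongr)
      have e5 := pow_le_pow_left₀ (norm_nonneg _) e4 2
      nlinarith only [e5, sq_nonneg (δ * ‖y w‖ - ‖(ρ e - 1) (y w)‖)]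
    refine (Finset.sum_le_sum fun w _ => e1 w).trans ?_
    rw [Finset.sum_add_distrib, ← Finset.mul_sum, ← Finset.mul_sum, hy1]
    have h7 : 2 * δ ^ 2 * 1 + 2 * (4 * κ) ^ 2 ≤ η ^ 2 := by
      rw [hδ, hκ, hη]
      norm_num
    linarith
  have hinv : ∀ g, ∑ x, ∑ x', ‖f ((gl j g).map x) ((gl j g).map x')
        - ((χ ((gl j g).ph x - (gl j g).ph x') : Circle) : ℂ) * f x x'‖ ^ 2 ≤ 10 * η := by
    intro g
    have h3 := hf3 (gl j g).map (fun x => ((χ (-(gl j g).ph x) : Circle) : ℂ)) (ρ (u g)) η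
      (gl_bijective j g) (fun x => Circle.norm_coe _) (by rw [hη]; positivity)
      (by rw [hη]; norm_num) ((hb1 g).trans (by rw [hκ, hη]; norm_num)) (hb2 g)
    refine le_trans (le_of_eq ?_) h3
    refine Finset.sum_congr rfl fun x _ => Finset.sum_congr rfl fun x' _ => ?_
    have h4 : ((χ ((gl j g).ph x - (gl j g).ph x') : Circle) : ℂ)
        = conj ((χ (-(gl j g).ph x) : Circle) : ℂ) * ((χ (-(gl j g).ph x') : Circle) : ℂ) := by
      rw [← Circle.coe_inv_eq_conj, ← AddChar.map_neg_eq_inv, neg_neg, sub_eq_add_neg,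
        AddChar.map_add_eq_mul, Circle.coe_mul]
    rw [h4]
  exact no_function hp hp2 hχ j hj f hf1 hf2 hη hinv

end

end Vale.Agent.P083.H903
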