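import Vale.Agent.P083.H903.Quot
import Vale.Agent.P083.H731.StageSeq

/-!
# The stage theorem holds
-/

set_option linter.all false

open Filter Topology
open scoped ENNReal InnerProductSpace

namespace Vale.Agent.P083.H903

open Vale.Agent.P083 Vale.Agent.P083N

theorem stStage : StStage := by
  intro p hp hp100 χ A hA a t s h B hB K i1 i2 i3 π hπ ω φ l1 l2 l3 l4 l5 hne
  haveI : NeZero p := ⟨hp.out.ne_zero⟩
  obtain ⟨n, -, e1, e2, e3, e4⟩ := Vale.Agent.P083X.exists_stage hp100 χ h B K π hπ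
    (φ := φ) ⟨l1, l2, l3, l4, l5⟩ hne
  exact ⟨n, e1, e2, e3, e4⟩

end Vale.Agent.P083.H903
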