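import Vale.Agent.P083.Bdl.B1
import Vale.Agent.P083.NuclearDef

/-!
# Stinespring dilation of a completely positive map into a matrix algebra, and the Choi
# decomposition of a completely positive map out of a matrix algebra
-/

set_option linter.all false

namespace Vale.Agent.P083.H903

open scoped ComplexOrder InnerProductSpace
open Vale.Agent.P083

noncomputable section

/-- the diagonal embedding of `D` in `M_k(D)` -/
def dgl (D : Type) [CStarAlgebra D] (k : ℕ) : D →⋆ₐ[ℂ] CStarMatrix (Fin k) (Fin k) D where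
  toFun x := CStarMatrix.ofMatrix (Matrix.diagonal fun _ => x)
  map_one' := by
    show CStarMatrix.ofMatrix (Matrix.diagonal fun _ : Fin k => (1 : D)) =
      CStarMatrix.ofMatrix (1 : Matrix (Fin k) (Fin k) D)
    rw [Matrix.diagonal_one]
  map_mul' x y := by
    have : (Matrix.diagonal fun _ : Fin k => x * y) =
        (Matrix.diagonal fun _ : Fin k => x) * Matrix.diagonal fun _ : Fin k => y := by
      rw [Matrix.diagonal_mul_diagonal]
    rw [this]
    rfl
  map_zero' := by
    have : (Matrix.diagonal fun _ : Fin k => (0 : D)) = 0 := Matrix.diagonal_zero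
    rw [this]
    rfl
  map_add' x y := by
    have : (Matrix.diagonal fun _ : Fin k => x + y) =
        (Matrix.diagonal fun _ : Fin k => x) + Matrix.diagonal fun _ : Fin k => y := by
      rw [Matrix.diagonal_add]
    rw [this]
    rfl
  commutes' c := by
    ext i j
    simp only [CStarMatrix.ofMatrix_apply, Matrix.diagonal_apply, CStarMatrix.algebraMap_apply]
  map_star' x := by
    ext i j
    rw [CStarMatrix.star_apply]
    simp only [CStarMatrix.ofMatrix_apply, Matrix.diagonal_apply]
    by_cases h : i = j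
    · subst h
      simp
    · simp [h, Ne.symm h]

/-- the functional `X ↦ ∑ α (X i j) i j` -/
def fnl {D : Type} [CStarAlgebra D] {k : ℕ} (α : D →ₗ[ℂ] Matrix (Fin k) (Fin k) ℂ) :
    CStarMatrix (Fin k) (Fin k) D →ₗ[ℂ] ℂ where
  toFun X := ∑ i, ∑ j, α (X i j) i j
  map_add' X Y := by
    simp only [CStarMatrix.add_apply, map_add, Matrix.add_apply, Finset.sum_add_distrib]
  map_smul' c X := by
    simp only [CStarMatrix.smul_apply, map_smul, Matrix.smul_apply, smul_eq_mul, Finset.mul_sum,
      RingHom.id_apply]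

theorem fnl_star_mul_nonneg {D : Type} [CStarAlgebra D] {k : ℕ}
    {α : D →ₗ[ℂ] Matrix (Fin k) (Fin k) ℂ} (hα : IsCP α) (Y : CStarMatrix (Fin k) (Fin k) D) :
    0 ≤ fnl α (star Y * Y) := by
  obtain ⟨Z, hZ⟩ := hα k (CStarMatrix.ofMatrix.symm Y)
  have h1 : ∀ i j, α ((star Y * Y) i j) = (Z.conjTranspose * Z) i j := hZ
  show 0 ≤ ∑ i, ∑ j, α ((star Y * Y) i j) i j
  have h2 : ∑ i, ∑ j, α ((star Y * Y) i j) i j
      = ∑ l, ∑ m, star (∑ i, Z l i m i) * (∑ j, Z l j m j) := by
    simp only [h1, Matrix.mul_apply, Matrix.sum_apply, Matrix.conjTranspose_apply,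
      Matrix.star_apply, star_sum, Finset.sum_mul, Finset.mul_sum]
    calc ∑ i, ∑ j, ∑ l, ∑ m, star (Z l i m i) * Z l j m j
        = ∑ i, ∑ l, ∑ m, ∑ j, star (Z l i m i) * Z l j m j := by
          refine Finset.sum_congr rfl fun i _ => ?_
          rw [Finset.sum_comm]
          refine Finset.sum_congr rfl fun l _ => ?_
          rw [Finset.sum_comm]
      _ = ∑ l, ∑ i, ∑ m, ∑ j, star (Z l i m i) * Z l j m j := Finset.sum_comm
      _ = ∑ l, ∑ m, ∑ i, ∑ j, star (Z l i m i) * Z l j m j := by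
          refine Finset.sum_congr rfl fun l _ => ?_
          rw [Finset.sum_comm]
      _ = _ := by
          refine Finset.sum_congr rfl fun l _ => Finset.sum_congr rfl fun m _ => ?_
          first
            | rfl
            | rw [Finset.sum_comm]
  rw [h2]
  refine Finset.sum_nonneg fun l _ => Finset.sum_nonneg fun m _ => ?_
  exact star_mul_self_nonneg _

theorem exists_star_mul {P : Type} [CStarAlgebra P] [PartialOrder P] [StarOrderedRing P] {x : P}
    (hx : 0 ≤ x) : ∃ y, x = star y * y := CStarAlgebra.nonneg_iff_eq_star_mul_self.1 hx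

/-- **Stinespring dilation** of a completely positive map into a matrix algebra. -/
theorem stinespring {D : Type} [CStarAlgebra D] {k : ℕ} (hk : 0 < k)
    {α : D →ₗ[ℂ] Matrix (Fin k) (Fin k) ℂ} (hα : IsCP α) :
    ∃ (K : Type) (_ : NormedAddCommGroup K) (_ : InnerProductSpace ℂ K) (_ : CompleteSpace K)
      (ρ : D →⋆ₐ[ℂ] (K →L[ℂ] K)) (w : Fin k → K), ∀ i j x, ⟪w i, ρ x (w j)⟫_ℂ = α x i j := by
  letI : PartialOrder D := CStarAlgebra.spectralOrder D
  letI : StarOrderedRing D := CStarAlgebra.spectralOrderedRing D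
  let ψ : CStarMatrix (Fin k) (Fin k) D →ₚ[ℂ] ℂ := PositiveLinearMap.mk₀ (fnl α) (by
    intro X hX
    obtain ⟨Y, rfl⟩ := exists_star_mul hX
    exact fnl_star_mul_nonneg hα Y)
  let e : Fin k → CStarMatrix (Fin k) (Fin k) D := fun j =>
    CStarMatrix.ofMatrix (Matrix.single ⟨0, hk⟩ j 1)
  refine ⟨ψ.GNS, inferInstance, inferInstance, inferInstance, ψ.gnsStarAlgHom.comp (dgl D k),
    fun j => ((ψ.toPreGNS (e j) : ψ.PreGNS) : ψ.GNS), fun i j x => ?_⟩
  have h1 : (ψ.gnsStarAlgHom.comp (dgl D k)) x ((ψ.toPreGNS (e j) : ψ.PreGNS) : ψ.GNS)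
      = ((ψ.toPreGNS (dgl D k x * e j) : ψ.PreGNS) : ψ.GNS) := by
    show ψ.gnsNonUnitalStarAlgHom (dgl D k x) ((ψ.toPreGNS (e j) : ψ.PreGNS) : ψ.GNS) = _
    rw [PositiveLinearMap.gnsNonUnitalStarAlgHom_apply_coe]
    rfl
  rw [h1, UniformSpace.Completion.inner_coe, PositiveLinearMap.preGNS_inner_def]
  show fnl α (star (e i) * (dgl D k x * e j)) = α x i j
  have h2 : star (e i) * (dgl D k x * e j)
      = CStarMatrix.ofMatrix (Matrix.single i j x) := by
    have e1 : star (Matrix.single (⟨0, hk⟩ : Fin k) i (1 : D)) = Matrix.single i ⟨0, hk⟩ 1 := by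
      rw [Matrix.star_eq_conjTranspose, Matrix.conjTranspose_single, star_one]
    have e2 : Matrix.single i (⟨0, hk⟩ : Fin k) (1 : D) *
        ((Matrix.diagonal fun _ : Fin k => x) * Matrix.single ⟨0, hk⟩ j 1)
        = Matrix.single i j x := by
      have e3 : (Matrix.diagonal fun _ : Fin k => x) * Matrix.single (⟨0, hk⟩ : Fin k) j 1
          = Matrix.single ⟨0, hk⟩ j x := by
        ext a b
        rw [Matrix.diagonal_mul]
        simp only [Matrix.single_apply]
        split_ifs <;> simp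
      rw [e3, Matrix.single_mul_single_same, one_mul]
    show CStarMatrix.ofMatrix (star (Matrix.single (⟨0, hk⟩ : Fin k) i (1 : D)) *
      ((Matrix.diagonal fun _ : Fin k => x) * Matrix.single ⟨0, hk⟩ j 1)) = _
    rw [e1, e2]
  rw [h2]
  show ∑ a, ∑ b, α ((Matrix.single i j x : Matrix (Fin k) (Fin k) D) a b) a b = α x i j
  rw [Finset.sum_eq_single i]
  · rw [Finset.sum_eq_single j]
    · rw [Matrix.single_apply_same]
    · intro b _ hb
      rw [Matrix.single_apply_of_ne _ _ _ _ _ (by simp [Ne.symm hb]), map_zero, Matrix.zero_apply]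
    · simp
  · intro a _ ha
    refine Finset.sum_eq_zero fun b _ => ?_
    rw [Matrix.single_apply_of_ne _ _ _ _ _ (by simp [Ne.symm ha]), map_zero, Matrix.zero_apply]
  · simp

/-- **Choi decomposition** of a completely positive map out of a matrix algebra. -/
theorem choi {B : Type} [CStarAlgebra B] {k : ℕ} (hk : 0 < k)
    {β : Matrix (Fin k) (Fin k) ℂ →ₗ[ℂ] B} (hβ : IsCP β) :
    ∃ Y : Fin k → Fin k → B, ∀ M : Matrix (Fin k) (Fin k) ℂ,
      β M = ∑ i, ∑ j, M i j • ∑ l, star (Y l i) * Y l j := by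
  let X : Matrix (Fin k) (Fin k) (Matrix (Fin k) (Fin k) ℂ) :=
    Matrix.of fun a b => if a = ⟨0, hk⟩ then Matrix.single ⟨0, hk⟩ b 1 else 0
  have hX : ∀ a b, X a b = if a = ⟨0, hk⟩ then Matrix.single ⟨0, hk⟩ b 1 else 0 := fun _ _ => rfl
  obtain ⟨Y, hY⟩ := hβ k X
  refine ⟨Y, fun M => ?_⟩
  have h1 : ∀ i j, β (Matrix.single i j 1) = ∑ l, star (Y l i) * Y l j := by
    intro i j
    have h2 := hY i j
    have h3 : (X.conjTranspose * X) i j = Matrix.single i j (1 : ℂ) := by
      rw [Matrix.mul_apply, Finset.sum_eq_single ⟨0, hk⟩]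
      · rw [Matrix.conjTranspose_apply, hX, hX, if_pos rfl, if_pos rfl,
          Matrix.star_eq_conjTranspose, Matrix.conjTranspose_single, star_one,
          Matrix.single_mul_single_same, one_mul]
      · intro b _ hb
        rw [Matrix.conjTranspose_apply, hX, if_neg hb, star_zero, zero_mul]
      · simp
    rw [h3] at h2
    rw [h2, Matrix.mul_apply]
    rfl
  conv_lhs => rw [Matrix.matrix_eq_sum_single M]
  rw [map_sum]
  refine Finset.sum_congr rfl fun i _ => ?_
  rw [map_sum]
  refine Finset.sum_congr rfl fun j _ => ?_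
  rw [← h1, ← map_smul]
  congr 1
  rw [Matrix.smul_single, smul_eq_mul, mul_one]

end

end Vale.Agent.P083.H903
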