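import Mathlib.Analysis.CStarAlgebra.Classes
import Mathlib.Order.Filter.Ultrafilter.Defs

/-!
# Norm ultraproducts of sequences of C*-algebras
-/

open Filter Topology

namespace Vale.Agent.P083.H903

/-- The sequence `x` with `x n ∈ B n` is norm-bounded. -/
def IsBddSeq {B : ℕ → Type} [∀ n, CStarAlgebra (B n)] (x : ∀ n, B n) : Prop :=
  ∃ C : ℝ, ∀ n, ‖x n‖ ≤ C

/-- `q` exhibits the C*-algebra `Q` as the norm ultraproduct
`∏_ω B n = {bounded sequences} / {x : lim_ω ‖x n‖ = 0}`: on the bounded sequences `q` is a unital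
*-homomorphism onto `Q`, whose kernel consists of the bounded sequences which are null along `ω`.
(The values of `q` at unbounded sequences play no role.) -/
structure IsUltraprod (B : ℕ → Type) [∀ n, CStarAlgebra (B n)] (ω : Ultrafilter ℕ)
    (Q : Type) [CStarAlgebra Q] (q : (∀ n, B n) → Q) : Prop where
  one : q 1 = 1
  add : ∀ x y, IsBddSeq x → IsBddSeq y → q (x + y) = q x + q y
  mul : ∀ x y, IsBddSeq x → IsBddSeq y → q (x * y) = q x * q y
  smul : ∀ (c : ℂ) (x), IsBddSeq x → q (c • x) = c • q x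
  star : ∀ x, IsBddSeq x → q (star x) = star (q x)
  surj : ∀ z, ∃ x, IsBddSeq x ∧ q x = z
  ker : ∀ x, IsBddSeq x → (q x = 0 ↔ Tendsto (fun n => ‖x n‖) ω (𝓝 0))

end Vale.Agent.P083.H903
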