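import Vale.Agent.P083.H903.StageOK
import Vale.Agent.P083.H903.UDef

/-!
# Norm ultraproducts, in the elementary form
-/

set_option linter.all false

open Filter Topology
open scoped ENNReal InnerProductSpace

namespace Vale.Agent.P083.H903

open Vale.Agent.P083 Vale.Agent.P083N

noncomputable section

theorem exists_isUltraprod (B : ℕ → Type) [∀ n, CStarAlgebra (B n)] [∀ n, Nontrivial (B n)]
    (ω : Ultrafilter ℕ) :
    ∃ (Q : Type) (_ : CStarAlgebra Q) (q : (∀ n, B n) → Q), IsUltraprod B ω Q q := by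
  classical
  obtain ⟨Q, hQ, q, hq⟩ := UP.exists_isUltraproduct B ω
  have hmem : ∀ x : ∀ n, B n, IsBddSeq x → Memℓp x ∞ := by
    rintro x ⟨C, hC⟩
    refine memℓp_infty ⟨C, ?_⟩
    rintro _ ⟨n, rfl⟩
    exact hC n
  have hbdd : ∀ x : lp B ∞, IsBddSeq (x : ∀ n, B n) := fun x =>
    ⟨‖x‖, fun n => lp.norm_apply_le_norm (by simp) x n⟩
  let g : (∀ n, B n) → Q := fun x => if h : Memℓp x ∞ then q ⟨x, h⟩ else 0
  have hg : ∀ (x : ∀ n, B n) (h : Memℓp x ∞), g x = q ⟨x, h⟩ := fun x h => dif_pos h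
  have hg' : ∀ x : lp B ∞, g x = q x := fun x => hg x x.2
  refine ⟨Q, hQ, g, ?_, ?_, ?_, ?_, ?_, ?_, ?_⟩
  · rw [← map_one q]
    exact hg' 1
  · intro x y hx hy
    rw [hg x (hmem x hx), hg y (hmem y hy), ← map_add]
    exact hg' (⟨x, hmem x hx⟩ + ⟨y, hmem y hy⟩)
  · intro x y hx hy
    rw [hg x (hmem x hx), hg y (hmem y hy), ← map_mul]
    exact hg' (⟨x, hmem x hx⟩ * ⟨y, hmem y hy⟩)
  · intro c x hx
    rw [hg x (hmem x hx), ← map_smul]
    exact hg' (c • ⟨x, hmem x hx⟩)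
  · intro x hx
    rw [hg x (hmem x hx), ← map_star]
    exact hg' (star ⟨x, hmem x hx⟩)
  · intro z
    obtain ⟨x, hx⟩ := hq.surj z
    exact ⟨x, hbdd x, by rw [hg' x, hx]⟩
  · intro x hx
    rw [hg x (hmem x hx)]
    exact hq.ker ⟨x, hmem x hx⟩

/-- A *-homomorphism into the norm ultraproduct has a lift to maps `φ n : A → B n` which are
asymptotically (along `ω`) *-homomorphisms. -/
theorem exists_lift' {A : Type} [CStarAlgebra A] {B : ℕ → Type} [∀ n, CStarAlgebra (B n)]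
    {ω : Ultrafilter ℕ} {Q : Type} [CStarAlgebra Q]
    {q : (∀ n, B n) → Q} (hq : IsUltraprod B ω Q q) (Φ : A →⋆ₙₐ[ℂ] Q) :
    ∃ φ : ∀ n, A → B n, (∀ a, ∃ C : ℝ, ∀ n, ‖φ n a‖ ≤ C) ∧
      (∀ a b, Tendsto (fun n => ‖φ n (a + b) - (φ n a + φ n b)‖) ω (𝓝 0)) ∧
      (∀ a b, Tendsto (fun n => ‖φ n (a * b) - φ n a * φ n b‖) ω (𝓝 0)) ∧
      (∀ (c : ℂ) (a : A), Tendsto (fun n => ‖φ n (c • a) - c • φ n a‖) ω (𝓝 0)) ∧
      (∀ a, Tendsto (fun n => ‖φ n (star a) - star (φ n a)‖) ω (𝓝 0)) ∧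
      ((∀ a, Tendsto (fun n => ‖φ n a‖) ω (𝓝 0)) → Φ = 0) := by
  choose L hL0 hL using fun a => hq.surj (Φ a)
  have badd : ∀ x y : ∀ n, B n, IsBddSeq x → IsBddSeq y → IsBddSeq (x + y) := by
    rintro x y ⟨C, hC⟩ ⟨D, hD⟩
    exact ⟨C + D, fun n => (norm_add_le _ _).trans (add_le_add (hC n) (hD n))⟩
  have bmul : ∀ x y : ∀ n, B n, IsBddSeq x → IsBddSeq y → IsBddSeq (x * y) := by
    rintro x y ⟨C, hC⟩ ⟨D, hD⟩
    exact ⟨C * D, fun n => (norm_mul_le _ _).trans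
      (mul_le_mul (hC n) (hD n) (norm_nonneg _) ((norm_nonneg _).trans (hC n)))⟩
  have bsmul : ∀ (c : ℂ) (x : ∀ n, B n), IsBddSeq x → IsBddSeq (c • x) := by
    rintro c x ⟨C, hC⟩
    refine ⟨‖c‖ * C, fun n => ?_⟩
    show ‖c • x n‖ ≤ _
    rw [norm_smul]
    exact mul_le_mul_of_nonneg_left (hC n) (norm_nonneg _)
  have bstar : ∀ x : ∀ n, B n, IsBddSeq x → IsBddSeq (star x) := by
    rintro x ⟨C, hC⟩
    exact ⟨C, fun n => by rw [Pi.star_apply, norm_star]; exact hC n⟩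
  have key : ∀ x y : ∀ n, B n, IsBddSeq x → IsBddSeq y → q x = q y →
      Tendsto (fun n => ‖x n - y n‖) ω (𝓝 0) := by
    intro x y hx hy hxy
    have h1 : q (x + (-1 : ℂ) • y) = 0 := by
      rw [hq.add _ _ hx (bsmul _ _ hy), hq.smul _ _ hy, hxy]
      simp
    have h2 := (hq.ker _ (badd _ _ hx (bsmul (-1) _ hy))).1 h1
    refine h2.congr fun n => ?_
    simp [sub_eq_add_neg]
  refine ⟨fun n a => L a n, fun a => hL0 a,
    fun a b => ?_, fun a b => ?_, fun c a => ?_, fun a => ?_, fun h => ?_⟩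
  · exact key (L (a + b)) (L a + L b) (hL0 _) (badd _ _ (hL0 _) (hL0 _))
      (by rw [hq.add _ _ (hL0 _) (hL0 _), hL, hL, hL, map_add])
  · exact key (L (a * b)) (L a * L b) (hL0 _) (bmul _ _ (hL0 _) (hL0 _))
      (by rw [hq.mul _ _ (hL0 _) (hL0 _), hL, hL, hL, map_mul])
  · exact key (L (c • a)) (c • L a) (hL0 _) (bsmul _ _ (hL0 _))
      (by rw [hq.smul _ _ (hL0 _), hL, hL, map_smul])
  · exact key (L (star a)) (star (L a)) (hL0 _) (bstar _ (hL0 _))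
      (by rw [hq.star _ (hL0 _), hL, hL, map_star])
  · refine NonUnitalStarAlgHom.ext fun a => ?_
    rw [← hL a]
    exact (hq.ker (L a) (hL0 a)).2 (h a)

end

end Vale.Agent.P083.H903
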